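import Mathlib

/-!
# Insensitive colourings of words (task A)

`X` is a finite alphabet with a kernel `K : X → X → ℝ` (squared distance).  Words are functions
`α → X`.  `wdist K` is the sum of `K` over the coordinates.  A map `L` between word spaces
`Scales K d` if it multiplies `wdist` by `d`.  A colouring `χ` of words is `Insens R` if words which
are coordinatewise `R`-related get the same colour.  `Ach K R` : for every finite colour type and
every finite variable type `α` there are a finite `β` and `d > 0` such that for every colouring `χ`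
of `β → X` some `L : (α → X) → (β → X)` scaling by `d` makes `χ ∘ L` insensitive to `R`.
-/

namespace Vale.Agent.P058

open Finset

variable {X : Type}

/-- sum of the kernel over the coordinates -/
def wdist (K : X → X → ℝ) {α : Type} [Fintype α] (w w' : α → X) : ℝ := ∑ a, K (w a) (w' a)

def Scales (K : X → X → ℝ) (d : ℕ) {α β : Type} [Fintype α] [Fintype β]
    (L : (α → X) → (β → X)) : Prop :=
  ∀ w w', wdist K (L w) (L w') = d * wdist K w w'

def Insens (R : X → X → Prop) {α κ : Type} (χ : (α → X) → κ) : Prop :=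
  ∀ w w', (∀ a, R (w a) (w' a)) → χ w = χ w'

def Ach (K : X → X → ℝ) (R : X → X → Prop) : Prop :=
  ∀ (κ : Type) [Finite κ] (α : Type) [Fintype α], ∃ (β : Type) (_ : Fintype β) (d : ℕ), 0 < d ∧
    ∀ χ : (β → X) → κ, ∃ L : (α → X) → (β → X), Scales K d L ∧ Insens R (χ ∘ L)

/-- every `R`-insensitive colouring of a large word space becomes `R'`-insensitive on the image of
a map scaling by `n`. -/
def Step (K : X → X → ℝ) (R R' : X → X → Prop) (n : ℕ) : Prop :=
  ∀ (κ : Type) [Finite κ] (α : Type) [Fintype α], ∃ (β : Type) (_ : Fintype β),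
    ∀ χ : (β → X) → κ, Insens R χ →
      ∃ L : (α → X) → (β → X), Scales K n L ∧ Insens R' (χ ∘ L)

/-- one-variable version of `Step` -/
def Step1 (K : X → X → ℝ) (R R' : X → X → Prop) (n : ℕ) : Prop :=
  ∀ (κ : Type) [Finite κ], ∃ (β : Type) (_ : Fintype β),
    ∀ χ : (β → X) → κ, Insens R χ →
      ∃ l : X → (β → X), (∀ x y, wdist K (l x) (l y) = n * K x y) ∧
        ∀ x y, R' x y → χ (l x) = χ (l y)

/-- base case: `β = α`, `d = 1`, `L = id`. -/
theorem Ach.eq (K : X → X → ℝ) : Ach K (fun x y => x = y) := by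
  intro κ _ α _
  refine ⟨α, inferInstance, 1, Nat.one_pos, fun χ => ⟨id, ?_, ?_⟩⟩
  · intro w w'
    simp
  · intro w w' h
    have : w = w' := funext h
    rw [this]

theorem Ach.mono {K : X → X → ℝ} {R R' : X → X → Prop} (h : ∀ x y, R' x y → R x y)
    (hA : Ach K R) : Ach K R' := by
  intro κ _ α _
  obtain ⟨β, hβ, d, hd, H⟩ := hA κ α
  refine ⟨β, hβ, d, hd, fun χ => ?_⟩
  obtain ⟨L, hL, hI⟩ := H χ
  exact ⟨L, hL, fun w w' hw => hI w w' (fun a => h _ _ (hw a))⟩

/-- composition: get `β` from `Step` for `α`, then `γ, d` from `Ach` for `β`; compose the maps. -/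
theorem Ach.step {K : X → X → ℝ} {R R' : X → X → Prop} {n : ℕ} (hA : Ach K R)
    (hS : Step K R R' n) (hn : 0 < n) : Ach K R' := by
  intro κ _ α _
  obtain ⟨β, hβ, H1⟩ := hS κ α
  obtain ⟨γ, hγ, d, hd, H2⟩ := hA κ β
  refine ⟨γ, hγ, d * n, Nat.mul_pos hd hn, fun χ => ?_⟩
  obtain ⟨L2, hL2, hI2⟩ := H2 χ
  obtain ⟨L1, hL1, hI1⟩ := H1 (χ ∘ L2) hI2
  refine ⟨L2 ∘ L1, ?_, hI1⟩
  intro w w'
  simp only [Function.comp]
  rw [hL2, hL1]
  push_cast
  ring

/-- Product argument.  Induction on `α` with `Finite.induction_empty_option`.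
Option step: given `κ`, let `β₁` come from the induction hypothesis with colour type `X → κ`, and
`β₂` from `Step1` with colour type `(β₁ → X) → κ`; `β = β₁ ⊕ β₂`.  Given `χ`, apply `Step1` to
`χ₂ z = fun y => χ (Sum.elim y z)` to get `l`, then the hypothesis to
`χ₁ y = fun x => χ (Sum.elim y (l x))` to get `L₁`, and put
`L w = Sum.elim (L₁ (w ∘ some)) (l (w none))`. -/
theorem step_of_step1 [Finite X] {K : X → X → ℝ} {R R' : X → X → Prop} {n : ℕ}
    (hR : ∀ x, R x x) (h : Step1 K R R' n) : Step K R R' n := by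
  have key : ∀ (α : Type) [Finite α], ∀ (_ : Fintype α) (κ : Type) [Finite κ],
      ∃ (β : Type) (_ : Fintype β), ∀ χ : (β → X) → κ, Insens R χ →
        ∃ L : (α → X) → (β → X), Scales K n L ∧ Insens R' (χ ∘ L) := by
    intro α _
    induction α using Finite.induction_empty_option with
    | of_equiv e ih =>
      rename_i α α'
      intro _ κ _
      haveI : Fintype α := Fintype.ofEquiv _ e.symm
      obtain ⟨β, hβ, H⟩ := ih this κ
      refine ⟨β, hβ, fun χ hχ => ?_⟩
      obtain ⟨L, hL, hI⟩ := H χ hχ
      refine ⟨fun w => L (w ∘ e), ?_, ?_⟩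
      · intro w w'
        rw [hL]
        congr 1
        exact Equiv.sum_comp e (fun a => K (w a) (w' a))
      · intro w w' hw
        exact hI _ _ (fun a => hw (e a))
    | h_empty =>
      intro _ κ _
      refine ⟨PEmpty, inferInstance, fun χ _ => ⟨fun _ => PEmpty.elim, ?_, ?_⟩⟩
      · intro w w'
        simp [wdist]
      · intro w w' _
        rfl
    | h_option ih =>
      rename_i α _
      intro inst κ _
      obtain rfl : inst = instFintypeOption := Subsingleton.elim _ _
      obtain ⟨β₁, hβ₁, H1⟩ := ih inferInstance (X → κ)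
      obtain ⟨β₂, hβ₂, H2⟩ := h ((β₁ → X) → κ)
      refine ⟨β₁ ⊕ β₂, inferInstance, fun χ hχ => ?_⟩
      obtain ⟨l, hl, hl'⟩ := H2 (fun z y => χ (Sum.elim y z)) (by
        intro z z' hz
        funext y
        apply hχ
        rintro (a | a)
        · exact hR _
        · exact hz a)
      obtain ⟨L₁, hL₁, hI₁⟩ := H1 (fun y x => χ (Sum.elim y (l x))) (by
        intro y y' hy
        funext x
        apply hχ
        rintro (a | a)
        · exact hy a
        · exact hR _)
      refine ⟨fun w => Sum.elim (L₁ (w ∘ some)) (l (w none)), ?_, ?_⟩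
      · intro w w'
        have e1 := hL₁ (w ∘ some) (w' ∘ some)
        have e2 := hl (w none) (w' none)
        simp only [wdist, Fintype.sum_sum_type, Sum.elim_inl, Sum.elim_inr, Fintype.sum_option,
          Function.comp] at e1 e2 ⊢
        rw [e1, e2]
        ring
      · intro w w' hw
        have e1 := congrFun (hI₁ (w ∘ some) (w' ∘ some) (fun a => hw (some a))) (w none)
        have e2 := congrFun (hl' (w none) (w' none) (hw none)) (L₁ (w' ∘ some))
        simp only [Function.comp] at e1 e2 ⊢
        rw [e1, e2]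
  intro κ _ α _
  exact key α inferInstance κ

end Vale.Agent.P058
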