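import Mathlib

/-!
# Rational nodes close to the roots (task N)

`ξ` injective with `1 < |ξ i|`.  If `ι` is empty everything is trivial (`ε = 1`).  Otherwise let
`c > 0` with `1 + c ≤ |ξ i|` for all `i`, `g₀ > 0` with `g₀ ≤ |ξ i - ξ j|` for `i ≠ j`
(`Finite.exists_min` or `Finset.exists_min_image`), `n = card ι`.  Choose a rational `ε > 0` with
`(n + 2) * ε ≤ c`, `η = min (g₀ / 4) (ε / 2 ^ n)`, and rationals `ξ i < r i < ξ i + η`
(`exists_rat_btwn`).  Then for `j ≠ i`: `|r i - r j| ≥ g₀ / 2`, `|r i - ξ j| ≤ |r i - r j| + η ≤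
2 |r i - r j|`, so the quotient is at most `η * 2 ^ (n - 1) ≤ ε` in absolute value
(split off the factor `j = i` of the numerator, `Finset.prod_le_prod`).  `r i ≠ ξ j`: for `j = i` by
`ξ i < r i`, for `j ≠ i` because `|r i - ξ j| ≥ g₀ - η > 0`.  `|r i| ≥ |ξ i| - η ≥ 1 + (n + 1) ε`.
-/

namespace Vale.Agent.P058

open Finset

theorem approx_nodes {ι : Type} [Fintype ι] [DecidableEq ι] (ξ : ι → ℝ)
    (hξ : Function.Injective ξ) (hξ1 : ∀ i, 1 < |ξ i|) :
    ∃ (r : ι → ℚ) (ε : ℚ), 0 < ε ∧ Function.Injective r ∧ (∀ i j, ξ j ≠ (r i : ℝ)) ∧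
      (∀ i, |(-(∏ j, ((r i : ℝ) - ξ j)) / ∏ j ∈ univ.erase i, ((r i : ℝ) - (r j : ℝ)))| ≤ (ε : ℝ)) ∧
      (∀ i, 1 + ((Fintype.card ι : ℚ) + 1) * ε ≤ |r i|) := by
  classical
  rcases isEmpty_or_nonempty ι with hι | hι
  · exact ⟨fun i => isEmptyElim i, 1, one_pos, fun i => isEmptyElim i, fun i => isEmptyElim i,
      fun i => isEmptyElim i, fun i => isEmptyElim i⟩
  -- the constant c
  obtain ⟨i₀, hi₀⟩ := Finite.exists_min (fun i => |ξ i|)
  set c : ℝ := |ξ i₀| - 1 with hc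
  have hcpos : 0 < c := by have := hξ1 i₀; linarith
  have hcle : ∀ i, 1 + c ≤ |ξ i| := fun i => by have := hi₀ i; linarith
  -- the gap
  obtain ⟨p₀, hp₀⟩ := Finite.exists_min
    (fun p : ι × ι => if p.1 = p.2 then (1 : ℝ) else |ξ p.1 - ξ p.2|)
  set g₀ : ℝ := if p₀.1 = p₀.2 then (1 : ℝ) else |ξ p₀.1 - ξ p₀.2| with hg₀
  have hgpos : 0 < g₀ := by
    rw [hg₀]
    split_ifs with h
    · exact one_pos
    · exact abs_pos.2 (sub_ne_zero.2 (fun e => h (hξ e)))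
  have hgle : ∀ i j, i ≠ j → g₀ ≤ |ξ i - ξ j| := by
    intro i j hij
    have := hp₀ (i, j)
    simpa [hij] using this
  set n : ℕ := Fintype.card ι with hn
  -- epsilon
  have hcn : 0 < c / ((n : ℝ) + 2) := by positivity
  obtain ⟨ε, hε0, hεc⟩ := exists_rat_btwn hcn
  have hε0' : (0 : ℝ) < (ε : ℝ) := hε0
  have hεq : (0 : ℚ) < ε := by exact_mod_cast hε0
  have hεc' : ((n : ℝ) + 2) * (ε : ℝ) ≤ c := by
    have h2 : (0 : ℝ) < (n : ℝ) + 2 := by positivity
    have := (lt_div_iff₀ h2).1 hεc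
    linarith
  set η : ℝ := min (g₀ / 4) ((ε : ℝ) / 2 ^ n) with hη
  have hηpos : 0 < η := by
    rw [hη]; apply lt_min <;> positivity
  have hηg : η ≤ g₀ / 4 := min_le_left _ _
  have hηε : η * 2 ^ n ≤ (ε : ℝ) := by
    have h1 : η ≤ (ε : ℝ) / 2 ^ n := min_le_right _ _
    have h2 : (0 : ℝ) < 2 ^ n := by positivity
    exact (le_div_iff₀ h2).1 h1
  have hηε' : η ≤ (ε : ℝ) := by
    have h2 : (1 : ℝ) ≤ 2 ^ n := one_le_pow₀ (by norm_num)
    nlinarith
  have hr : ∀ i, ∃ q : ℚ, ξ i < (q : ℝ) ∧ (q : ℝ) < ξ i + η := fun i =>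
    exists_rat_btwn (by linarith)
  choose r hr1 hr2 using hr
  have hrξ : ∀ i, |(r i : ℝ) - ξ i| ≤ η := fun i => by
    rw [abs_le]; constructor <;> [linarith [hr1 i]; linarith [hr2 i]]
  have hrr : ∀ i j, i ≠ j → g₀ / 2 ≤ |(r i : ℝ) - (r j : ℝ)| := by
    intro i j hij
    have h1 := hgle i j hij
    have h2 : ξ i - ξ j = ((r i : ℝ) - r j) - ((r i : ℝ) - ξ i) + ((r j : ℝ) - ξ j) := by ring
    have h3 : |ξ i - ξ j| ≤ |(r i : ℝ) - r j| + |(r i : ℝ) - ξ i| + |(r j : ℝ) - ξ j| := by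
      rw [h2]
      calc _ ≤ |((r i : ℝ) - r j) - ((r i : ℝ) - ξ i)| + |(r j : ℝ) - ξ j| := abs_add_le _ _
        _ ≤ _ := by gcongr; exact abs_sub _ _
    have := hrξ i
    have := hrξ j
    linarith
  have hrξ2 : ∀ i j, i ≠ j → |(r i : ℝ) - ξ j| ≤ 2 * |(r i : ℝ) - (r j : ℝ)| := by
    intro i j hij
    have h2 : (r i : ℝ) - ξ j = ((r i : ℝ) - r j) + ((r j : ℝ) - ξ j) := by ring
    have h3 : |(r i : ℝ) - ξ j| ≤ |(r i : ℝ) - r j| + |(r j : ℝ) - ξ j| := by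
      rw [h2]; exact abs_add_le _ _
    have := hrξ j
    have := hrr i j hij
    linarith
  refine ⟨r, ε, hεq, ?_, ?_, ?_, ?_⟩
  · intro i j hij
    by_contra hne
    have := hrr i j hne
    rw [hij] at this
    simp at this
    linarith
  · intro i j h
    by_cases hij : i = j
    · subst hij
      have := hr1 i
      linarith
    · have h1 := hgle i j hij
      have h2 : ξ i - ξ j = -((r i : ℝ) - ξ i) := by rw [h]; ring
      rw [h2, abs_neg] at h1
      have := hrξ i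
      linarith
  · intro i
    have hB : 0 < ∏ j ∈ univ.erase i, |(r i : ℝ) - (r j : ℝ)| := by
      apply Finset.prod_pos
      intro j hj
      have hji : i ≠ j := fun e => (Finset.ne_of_mem_erase hj) e.symm
      have := hrr i j hji
      linarith
    rw [abs_div, abs_neg, Finset.abs_prod, Finset.abs_prod, div_le_iff₀ hB,
      ← Finset.mul_prod_erase univ _ (Finset.mem_univ i)]
    have h1 : ∏ j ∈ univ.erase i, |(r i : ℝ) - ξ j|
        ≤ ∏ j ∈ univ.erase i, (2 * |(r i : ℝ) - (r j : ℝ)|) := by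
      apply Finset.prod_le_prod
      · intro j _; exact abs_nonneg _
      · intro j hj
        exact hrξ2 i j (fun e => (Finset.ne_of_mem_erase hj) e.symm)
    rw [Finset.prod_mul_distrib, Finset.prod_const] at h1
    have h2 : (2 : ℝ) ^ (univ.erase i).card ≤ 2 ^ n := by
      apply pow_le_pow_right₀ (by norm_num)
      rw [hn]
      exact (Finset.card_le_card (Finset.erase_subset _ _)).trans (le_of_eq Finset.card_univ)
    calc |(r i : ℝ) - ξ i| * ∏ j ∈ univ.erase i, |(r i : ℝ) - ξ j|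
        ≤ η * (2 ^ n * ∏ j ∈ univ.erase i, |(r i : ℝ) - (r j : ℝ)|) := by
          apply mul_le_mul (hrξ i) _ (Finset.prod_nonneg fun j _ => abs_nonneg _) hηpos.le
          refine h1.trans ?_
          exact mul_le_mul_of_nonneg_right h2 hB.le
      _ = (η * 2 ^ n) * ∏ j ∈ univ.erase i, |(r i : ℝ) - (r j : ℝ)| := by ring
      _ ≤ (ε : ℝ) * ∏ j ∈ univ.erase i, |(r i : ℝ) - (r j : ℝ)| :=
          mul_le_mul_of_nonneg_right hηε hB.le
  · intro i
    have h1 : |ξ i| ≤ |(r i : ℝ)| + η := by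
      have h2 : ξ i = (r i : ℝ) - ((r i : ℝ) - ξ i) := by ring
      calc |ξ i| = |(r i : ℝ) - ((r i : ℝ) - ξ i)| := by rw [← h2]
        _ ≤ |(r i : ℝ)| + |(r i : ℝ) - ξ i| := abs_sub _ _
        _ ≤ _ := by gcongr; exact hrξ i
    have h3 := hcle i
    have h4 : (1 : ℝ) + ((n : ℝ) + 1) * (ε : ℝ) ≤ |(r i : ℝ)| := by nlinarith
    have h5 : ((1 + ((n : ℚ) + 1) * ε : ℚ) : ℝ) ≤ ((|r i| : ℚ) : ℝ) := by
      push_cast
      exact h4
    exact_mod_cast h5

end Vale.Agent.P058
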