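import Vale.Agent.P058.RamseyEmb
import Vale.Agent.P058.Ach

/-!
# The cyclic one-block step (task B)

`c` is a permutation of `X` preserving `K`, `c ^ n = 1`, `R₀` an equivalence relation preserved by
`c`, `o : X`.  `Rk R₀ c o k` glues the `R₀`-classes of `o, c o, ..., c^k o`.

Proof of `step1_cyclic`.  Let `M` come from `ramsey_emb (X → κ) n (2 * n)`, `β = Fin M`.
For `J : Fin n ↪o Fin M` let `word J x = Function.extend J (fun i => (c ^ (i : ℕ)) x) (fun _ => o)`
and colour `J` by `fun x => χ (word J x)`.  Take a homogeneous `T : Fin (2 * n) ↪o Fin M`.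
For `t ≤ n` let `J_t i = i + t`.  The line is `l = word (J_0.trans T)`.
* `wdist K (l x) (l y) = n * K x y` since `K (c^i x) (c^i y) = K x y` and `K o o = 0`
  (`Fintype.sum_of_injective`).
* if `R₀ x y` then `l x`, `l y` are coordinatewise `R₀`-related.
* if `R₀ x (c^t o)` with `t ≤ k + 1` then with `t' = t % n` (`pow_eq_pow_mod`):
  `χ (l x) = χ (l (c^t' o)) = χ (word (J_t'.trans T) (c^t' o)) = χ (l o)`; the last equality holds
  since the two words are coordinatewise `Rk k`-related: at `T q` the first word has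
  `o` (`q < t'`), `c^q o` (`t' ≤ q < t' + n`), `o` (`t' + n ≤ q`), the second one `c^q o` (`q < n`),
  `o` (`n ≤ q`); for `q < t'` we have `q ≤ k`; for `n ≤ q < n + t'` we have `c^q o = c^(q-n) o` and
  `q - n ≤ k`.
-/

namespace Vale.Agent.P058

variable {X : Type}

def Rk (R₀ : X → X → Prop) (c : Equiv.Perm X) (o : X) (k : ℕ) (x y : X) : Prop :=
  R₀ x y ∨ ((∃ t ≤ k, R₀ x ((c ^ t) o)) ∧ (∃ t ≤ k, R₀ y ((c ^ t) o)))

/-- the word with `x, c x, c^2 x, ...` at the places given by `J`, and `o` elsewhere -/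
noncomputable def bword (c : Equiv.Perm X) (o : X) {n M : ℕ} (J : Fin n ↪o Fin M) (x : X) : Fin M → X :=
  Function.extend J (fun i => (c ^ (i : ℕ)) x) (fun _ => o)

theorem bword_apply (c : Equiv.Perm X) (o : X) {n M : ℕ} (J : Fin n ↪o Fin M) (x : X)
    (i : Fin n) : bword c o J x (J i) = (c ^ (i : ℕ)) x :=
  J.injective.extend_apply _ _ i

theorem bword_apply' (c : Equiv.Perm X) (o : X) {n M : ℕ} (J : Fin n ↪o Fin M) (x : X)
    (a : Fin M) (ha : ¬ ∃ i, J i = a) : bword c o J x a = o :=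
  Function.extend_apply' _ _ a ha

/-- the window `t, t+1, ..., t+n-1` inside `0, ..., 2n-1` -/
def shiftEmb (n t : ℕ) (ht : t ≤ n) : Fin n ↪o Fin (2 * n) :=
  OrderEmbedding.ofStrictMono (fun i => ⟨(i : ℕ) + t, by omega⟩) (by
    intro i j hij
    have : (i : ℕ) < j := hij
    show (i : ℕ) + t < (j : ℕ) + t
    omega)

theorem shiftEmb_val (n t : ℕ) (ht : t ≤ n) (i : Fin n) :
    ((shiftEmb n t ht i : Fin (2 * n)) : ℕ) = (i : ℕ) + t := rfl

theorem pow_pres {R₀ : X → X → Prop} {c : Equiv.Perm X} (hc : ∀ x y, R₀ x y → R₀ (c x) (c y))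
    (i : ℕ) {x y : X} (h : R₀ x y) : R₀ ((c ^ i) x) ((c ^ i) y) := by
  induction i with
  | zero => simpa using h
  | succ i ih =>
    rw [pow_succ', Equiv.Perm.mul_apply, Equiv.Perm.mul_apply]
    exact hc _ _ ih

theorem pow_K {K : X → X → ℝ} {c : Equiv.Perm X} (hKc : ∀ x y, K (c x) (c y) = K x y)
    (i : ℕ) (x y : X) : K ((c ^ i) x) ((c ^ i) y) = K x y := by
  induction i with
  | zero => simp
  | succ i ih =>
    rw [pow_succ', Equiv.Perm.mul_apply, Equiv.Perm.mul_apply, hKc, ih]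

theorem bword_wdist (K : X → X → ℝ) (c : Equiv.Perm X) (hK0 : ∀ x, K x x = 0)
    (hKc : ∀ x y, K (c x) (c y) = K x y) (o : X) {n M : ℕ} (J : Fin n ↪o Fin M) (x y : X) :
    wdist K (bword c o J x) (bword c o J y) = n * K x y := by
  unfold wdist
  rw [← Fintype.sum_of_injective J J.injective (fun _ => K x y)
    (fun a => K (bword c o J x a) (bword c o J y a))]
  · simp
  · intro a ha
    have ha' : ¬ ∃ i, J i = a := ha
    rw [bword_apply' c o J x a ha', bword_apply' c o J y a ha', hK0]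
  · intro i
    rw [bword_apply, bword_apply, pow_K hKc]

theorem bword_rel {R₀ : X → X → Prop} (hrefl : ∀ x, R₀ x x) {c : Equiv.Perm X}
    (hc : ∀ x y, R₀ x y → R₀ (c x) (c y)) (o : X) {n M : ℕ} (J : Fin n ↪o Fin M) {x y : X}
    (h : R₀ x y) (a : Fin M) : R₀ (bword c o J x a) (bword c o J y a) := by
  by_cases ha : ∃ i, J i = a
  · obtain ⟨i, rfl⟩ := ha
    rw [bword_apply, bword_apply]
    exact pow_pres hc _ h
  · rw [bword_apply' c o J x a ha, bword_apply' c o J y a ha]
    exact hrefl o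

/-- value of a shifted word at a place of `T` -/
theorem bword_shift (c : Equiv.Perm X) (o : X) {n M : ℕ} (T : Fin (2 * n) ↪o Fin M) (t : ℕ)
    (ht : t ≤ n) (z : X) (q : Fin (2 * n)) :
    bword c o ((shiftEmb n t ht).trans T) z (T q) =
      if t ≤ (q : ℕ) ∧ (q : ℕ) < t + n then (c ^ ((q : ℕ) - t)) z else o := by
  split_ifs with h
  · have hq : (q : ℕ) - t < n := by omega
    have : T q = ((shiftEmb n t ht).trans T) ⟨(q : ℕ) - t, hq⟩ := by
      show T q = T (shiftEmb n t ht ⟨(q : ℕ) - t, hq⟩)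
      congr 1
      apply Fin.ext
      rw [shiftEmb_val]
      show (q : ℕ) = (q : ℕ) - t + t
      omega
    rw [this, bword_apply]
  · apply bword_apply'
    rintro ⟨i, hi⟩
    have hi' : T (shiftEmb n t ht i) = T q := hi
    have := T.injective hi'
    have h2 : ((shiftEmb n t ht i : Fin (2 * n)) : ℕ) = q := by rw [this]
    rw [shiftEmb_val] at h2
    apply h
    have := i.2
    omega

theorem bword_off (c : Equiv.Perm X) (o : X) {n M : ℕ} (T : Fin (2 * n) ↪o Fin M)
    (J : Fin n ↪o Fin (2 * n)) (z : X) (a : Fin M) (ha : ¬ ∃ q, T q = a) :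
    bword c o (J.trans T) z a = o := by
  apply bword_apply'
  rintro ⟨i, hi⟩
  exact ha ⟨J i, hi⟩

theorem step1_cyclic [Finite X] (K : X → X → ℝ) (c : Equiv.Perm X) (hK0 : ∀ x, K x x = 0)
    (hKc : ∀ x y, K (c x) (c y) = K x y) (n : ℕ) (hn : 0 < n) (hcn : c ^ n = 1)
    (R₀ : X → X → Prop) (hR₀ : Equivalence R₀) (hc : ∀ x y, R₀ x y → R₀ (c x) (c y))
    (o : X) (k : ℕ) : Step1 K (Rk R₀ c o k) (Rk R₀ c o (k + 1)) n := by
  intro κ _
  obtain ⟨M, hM⟩ := ramsey_emb (X → κ) n (2 * n)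
  refine ⟨Fin M, inferInstance, ?_⟩
  intro χ hχ
  obtain ⟨T, c0, hT⟩ := hM (fun J x => χ (bword c o J x))
  have hT' : ∀ (J : Fin n ↪o Fin (2 * n)) (x : X), χ (bword c o (J.trans T) x) = c0 x :=
    fun J x => congrFun (hT J) x
  refine ⟨bword c o ((shiftEmb n 0 (Nat.zero_le n)).trans T), ?_, ?_⟩
  · intro x y
    exact bword_wdist K c hK0 hKc o _ x y
  -- `R₀`-related letters
  have h0 : ∀ x y, R₀ x y → χ (bword c o ((shiftEmb n 0 (Nat.zero_le n)).trans T) x) =
      χ (bword c o ((shiftEmb n 0 (Nat.zero_le n)).trans T) y) := by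
    intro x y h
    apply hχ
    intro a
    exact Or.inl (bword_rel hR₀.refl hc o _ h a)
  -- the key step
  have h1 : ∀ x, (∃ t ≤ k + 1, R₀ x ((c ^ t) o)) →
      χ (bword c o ((shiftEmb n 0 (Nat.zero_le n)).trans T) x) =
      χ (bword c o ((shiftEmb n 0 (Nat.zero_le n)).trans T) o) := by
    rintro x ⟨t, htk, hx⟩
    have hmod : (c ^ t) o = (c ^ (t % n)) o := by
      rw [pow_eq_pow_mod t hcn]
    rw [hmod] at hx
    have ht' : t % n < n := Nat.mod_lt _ hn
    have ht'k : t % n ≤ k + 1 := le_trans (Nat.mod_le _ _) htk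
    generalize t % n = s at hx ht' ht'k
    rw [h0 x _ hx, hT', ← hT' (shiftEmb n s ht'.le)]
    apply hχ
    intro a
    by_cases ha : ∃ q, T q = a
    · obtain ⟨q, rfl⟩ := ha
      rw [bword_shift, bword_shift]
      have hq := q.2
      by_cases h1 : (q : ℕ) < s
      · rw [if_neg (by omega), if_pos (by omega)]
        refine Or.inr ⟨⟨0, Nat.zero_le _, by simpa using hR₀.refl o⟩, ⟨(q : ℕ), by omega, ?_⟩⟩
        simpa using hR₀.refl _
      · by_cases h2 : (q : ℕ) < n
        · rw [if_pos (by omega), if_pos (by omega)]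
          left
          rw [← Equiv.Perm.mul_apply, ← pow_add]
          have : (q : ℕ) - s + s = (q : ℕ) - 0 := by omega
          rw [this]
          exact hR₀.refl _
        · by_cases h3 : (q : ℕ) < s + n
          · rw [if_pos (by omega), if_neg (by omega)]
            refine Or.inr ⟨⟨(q : ℕ) - n, by omega, ?_⟩, ⟨0, Nat.zero_le _, by simpa using hR₀.refl o⟩⟩
            rw [← Equiv.Perm.mul_apply, ← pow_add]
            have : (q : ℕ) - s + s = ((q : ℕ) - n) + n := by omega
            rw [this, pow_add, hcn, mul_one]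
            exact hR₀.refl _
          · rw [if_neg (by omega), if_neg (by omega)]
            exact Or.inl (hR₀.refl _)
    · rw [bword_off c o T _ _ a ha, bword_off c o T _ _ a ha]
      exact Or.inl (hR₀.refl _)
  intro x y hxy
  rcases hxy with h | ⟨hx, hy⟩
  · exact h0 x y h
  · rw [h1 x hx, h1 y hy]

end Vale.Agent.P058
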