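import Vale.Agent.P058.Defs

namespace Vale.Agent.P058

open scoped BigOperators RealInnerProductSpace

section
variable {ι : Type*} [Fintype ι]

/-- Permuting coordinates, as a linear isometry. -/
noncomputable def permL (π : Equiv.Perm ι) : EuclideanSpace ℝ ι ≃ₗᵢ[ℝ] EuclideanSpace ℝ ι :=
  LinearIsometryEquiv.piLpCongrLeft 2 ℝ ℝ π.symm

@[simp] lemma permL_apply (π : Equiv.Perm ι) (v : EuclideanSpace ℝ ι) (i : ι) :
    permL π v i = v (π i) := by
  simp [permL, LinearIsometryEquiv.piLpCongrLeft_apply, Equiv.piCongrLeft']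

/-- All rearrangements of the vector `v`. -/
def blockSet (v : EuclideanSpace ℝ ι) : Set (EuclideanSpace ℝ ι) :=
  Set.range (fun π : Equiv.Perm ι => permL π v)

lemma blockSet_finite (v : EuclideanSpace ℝ ι) : (blockSet v).Finite := by
  classical
  exact Set.finite_range _

lemma permL_permL (π ρ : Equiv.Perm ι) (v : EuclideanSpace ℝ ι) :
    permL ρ (permL π v) = permL (ρ.trans π) v := by
  ext i; simp

lemma permL_image_blockSet (ρ : Equiv.Perm ι) (v : EuclideanSpace ℝ ι) :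
    (permL ρ) '' blockSet v = blockSet v := by
  ext z
  constructor
  · rintro ⟨_, ⟨π, rfl⟩, rfl⟩
    exact ⟨ρ.trans π, (permL_permL π ρ v).symm⟩
  · rintro ⟨π, rfl⟩
    refine ⟨permL (ρ.symm.trans π) v, ⟨_, rfl⟩, ?_⟩
    rw [permL_permL]
    congr 1
    ext i; simp

lemma blockSet_transitive (v : EuclideanSpace ℝ ι) :
    ∀ x ∈ blockSet v, ∀ y ∈ blockSet v,
      ∃ f : EuclideanSpace ℝ ι ≃ᵢ EuclideanSpace ℝ ι, f '' blockSet v = blockSet v ∧ f x = y := by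
  rintro _ ⟨π1, rfl⟩ _ ⟨π2, rfl⟩
  refine ⟨(permL (π2.trans π1.symm)).toIsometryEquiv, permL_image_blockSet _ v, ?_⟩
  show permL (π2.trans π1.symm) (permL π1 v) = permL π2 v
  rw [permL_permL]
  congr 1
  ext i; simp

lemma norm_of_mem_blockSet {v x : EuclideanSpace ℝ ι} (hx : x ∈ blockSet v) : ‖x‖ = ‖v‖ := by
  obtain ⟨π, rfl⟩ := hx
  exact (permL π).norm_map v

lemma smul_mem_blockSet {v x : EuclideanSpace ℝ ι} (r : ℝ) (hx : x ∈ blockSet v) :
    r • x ∈ blockSet (r • v) := by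
  obtain ⟨π, rfl⟩ := hx
  exact ⟨π, by simp⟩

theorem subtransitive_of_blockSet {d : ℕ} (A : Set (E d)) (v : EuclideanSpace ℝ ι)
    (g : E d → EuclideanSpace ℝ ι) (hg1 : ∀ a ∈ A, g a ∈ blockSet v)
    (hg2 : ∀ a ∈ A, ∀ b ∈ A, dist (g a) (g b) = dist a b) : IsSubtransitive A := by
  classical
  let e : EuclideanSpace ℝ ι ≃ₗᵢ[ℝ] E (Fintype.card ι) :=
    LinearIsometryEquiv.piLpCongrLeft 2 ℝ ℝ (Fintype.equivFin ι)
  refine ⟨Fintype.card ι, e '' blockSet v, fun a => e (g a), ⟨?_, ?_⟩, ?_, ?_⟩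
  · exact (blockSet_finite v).image _
  · rintro _ ⟨x, hx, rfl⟩ _ ⟨y, hy, rfl⟩
    obtain ⟨f, hf1, hf2⟩ := blockSet_transitive v x hx y hy
    refine ⟨e.symm.toIsometryEquiv.trans (f.trans e.toIsometryEquiv), ?_, ?_⟩
    · ext z
      constructor
      · rintro ⟨_, ⟨w, hw, rfl⟩, rfl⟩
        refine ⟨f w, ?_, by simp⟩
        rw [← hf1]; exact ⟨w, hw, rfl⟩
      · rintro ⟨w, hw, rfl⟩
        rw [← hf1] at hw
        obtain ⟨u, hu, rfl⟩ := hw
        exact ⟨e u, ⟨u, hu, rfl⟩, by simp⟩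
    · simp [hf2]
  · intro a ha
    exact ⟨g a, hg1 a ha, rfl⟩
  · intro a ha b hb
    rw [e.dist_map]
    exact hg2 a ha b hb

end

lemma kite_isometry {F : Type*} [NormedAddCommGroup F] [InnerProductSpace ℝ F] (t s : ℝ)
    (hts : t ^ 2 + s ^ 2 = 1) (hs : s ≠ 0) (a b c d : F)
    (hb : ‖b‖ = ‖a‖) (hc : ‖c‖ = ‖a‖) (hd : ‖d‖ = ‖a‖)
    (hrel : b + d = (1 + t) • a + (1 - t) • c)
    (hab : ⟪a, b⟫ = ⟪a, d⟫) (hcb : ⟪c, b⟫ = ⟪c, d⟫) (hac : ‖a - c‖ = 2) :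
    ∃ g : E 2 → F, (∀ p q, dist (g p) (g q) = dist p q) ∧ g !₂[1, 0] = a ∧ g !₂[-1, 0] = c ∧
      g !₂[t, s] = b ∧ g !₂[t, -s] = d := by
  obtain ⟨e1, he1⟩ : ∃ e : F, e = (1 / 2 : ℝ) • (a - c) := ⟨_, rfl⟩
  obtain ⟨e2, he2⟩ : ∃ e : F, e = (1 / (2 * s)) • (b - d) := ⟨_, rfl⟩
  obtain ⟨o, ho⟩ : ∃ e : F, e = (1 / 2 : ℝ) • (a + c) := ⟨_, rfl⟩
  have hN : ‖a - c‖ ^ 2 = 4 := by rw [hac]; norm_num
  have hN' : ‖a‖ ^ 2 - 2 * ⟪a, c⟫ + ‖a‖ ^ 2 = 4 := by
    rw [norm_sub_sq_real, hc] at hN; exact hN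
  have h11 : ‖e1‖ ^ 2 = 1 := by
    rw [he1, norm_smul, mul_pow, hN]; norm_num
  have hbd : ‖b - d‖ ^ 2 = 4 * s ^ 2 := by
    have hpar : ‖b + d‖ ^ 2 + ‖b - d‖ ^ 2 = 2 * (‖b‖ ^ 2 + ‖d‖ ^ 2) := by
      have := parallelogram_law_with_norm ℝ b d
      nlinarith [this]
    have hsum : ‖b + d‖ ^ 2 = (1 + t) ^ 2 * ‖a‖ ^ 2 + 2 * ((1 + t) * (1 - t) * ⟪a, c⟫)
        + (1 - t) ^ 2 * ‖a‖ ^ 2 := by
      rw [hrel, norm_add_sq_real, norm_smul, norm_smul, inner_smul_left, inner_smul_right, hc,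
        mul_pow, mul_pow]
      simp only [Real.norm_eq_abs, sq_abs, conj_trivial]
      ring
    rw [hb, hd, hsum] at hpar
    nlinarith [hpar, hN', hts]
  have h22 : ‖e2‖ ^ 2 = 1 := by
    rw [he2, norm_smul, mul_pow, hbd]
    simp only [Real.norm_eq_abs, sq_abs]
    field_simp
    ring
  have h12 : ⟪e1, e2⟫ = 0 := by
    rw [he1, he2, inner_smul_left, inner_smul_right, inner_sub_left, inner_sub_right,
      inner_sub_right, hab, hcb]
    simp
  have hs2 : s • e2 = (1 / 2 : ℝ) • (b - d) := by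
    rw [he2, smul_smul]
    congr 1
    field_simp
  refine ⟨fun p => o + p 0 • e1 + p 1 • e2, ?_, ?_, ?_, ?_, ?_⟩
  · intro p q
    have h1 : (o + p 0 • e1 + p 1 • e2) - (o + q 0 • e1 + q 1 • e2)
        = (p 0 - q 0) • e1 + (p 1 - q 1) • e2 := by
      module
    have h2 : ‖(p 0 - q 0) • e1 + (p 1 - q 1) • e2‖ ^ 2 = (p 0 - q 0) ^ 2 + (p 1 - q 1) ^ 2 := by
      rw [norm_add_sq_real, norm_smul, norm_smul, inner_smul_left, inner_smul_right, h12, mul_pow,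
        mul_pow, h11, h22]
      simp
    rw [dist_eq_norm, h1, EuclideanSpace.dist_eq, Fin.sum_univ_two, Real.dist_eq, Real.dist_eq,
      sq_abs, sq_abs, ← h2, Real.sqrt_sq (norm_nonneg _)]
  · simp only [Matrix.cons_val_zero, Matrix.cons_val_one]
    rw [he1, ho]
    module
  · simp only [Matrix.cons_val_zero, Matrix.cons_val_one]
    rw [he1, ho]
    module
  · simp only [Matrix.cons_val_zero, Matrix.cons_val_one]
    rw [hs2, he1, ho]
    linear_combination (norm := module) (-(1 / 2 : ℝ)) • hrel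
  · simp only [Matrix.cons_val_zero, Matrix.cons_val_one]
    rw [neg_smul, hs2, he1, ho]
    linear_combination (norm := module) (-(1 / 2 : ℝ)) • hrel

theorem subtransitive_of_config {ι : Type*} [Fintype ι] (t s : ℝ) (hts : t ^ 2 + s ^ 2 = 1)
    (hs : s ≠ 0) (v a b c d : EuclideanSpace ℝ ι)
    (ha : a ∈ blockSet v) (hb : b ∈ blockSet v) (hc : c ∈ blockSet v) (hd : d ∈ blockSet v)
    (hrel : b + d = (1 + t) • a + (1 - t) • c)
    (hab : ⟪a, b⟫ = ⟪a, d⟫) (hcb : ⟪c, b⟫ = ⟪c, d⟫) (hne : a ≠ c) :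
    IsSubtransitive (kite t s) := by
  have hpos : 0 < ‖a - c‖ := norm_pos_iff.2 (sub_ne_zero.2 hne)
  set r : ℝ := 2 / ‖a - c‖ with hr
  have hrpos : 0 < r := by positivity
  have hn : ∀ {x : EuclideanSpace ℝ ι}, x ∈ blockSet v → ‖r • x‖ = ‖r • a‖ := by
    intro x hx
    rw [norm_smul, norm_smul, norm_of_mem_blockSet hx, norm_of_mem_blockSet ha]
  obtain ⟨g, hg, ga, gc, gb, gd⟩ := kite_isometry t s hts hs (r • a) (r • b) (r • c) (r • d)
    (hn hb) (hn hc) (hn hd)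
    (by rw [← smul_add, hrel, smul_add, smul_comm, smul_comm r (1 - t)])
    (by simp only [inner_smul_left, inner_smul_right, hab])
    (by simp only [inner_smul_left, inner_smul_right, hcb])
    (by rw [← smul_sub, norm_smul, Real.norm_of_nonneg hrpos.le, hr]; field_simp)
  refine subtransitive_of_blockSet (kite t s) (r • v) g ?_ (fun p _ q _ => hg p q)
  intro p hp
  simp only [kite, Set.mem_insert_iff, Set.mem_singleton_iff] at hp
  rcases hp with rfl | rfl | rfl | rfl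
  · rw [ga]; exact smul_mem_blockSet r ha
  · rw [gc]; exact smul_mem_blockSet r hc
  · rw [gb]; exact smul_mem_blockSet r hb
  · rw [gd]; exact smul_mem_blockSet r hd

end Vale.Agent.P058
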