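import Mathlib

/-!
# Moving averages on `ZMod (2 ^ k)` (task F1)

`gpool` takes the value `1` on `u` points, `-t` on `m` points and `t` elsewhere; if
`t * (u + 2 m) = u` its mean is `t`.  `bavg j` is the moving average over windows of length `2 ^ j`.
`bavg_top`: `∑ i ∈ range N, f (s + i) = ∑ x : ZMod N, f x` (`Finset.sum_nbij'` with the cast and
`ZMod.val`, then `Equiv.sum_comp (Equiv.addLeft s)`), and the sum of `gpool` is computed by going
back to `range (2 ^ k)` and splitting it with `Finset.sum_range_add` (write `2 ^ k = u + (m + w)`).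
-/

namespace Vale.Agent.P058

open Finset

noncomputable def gpool (k u m : ℕ) (t : ℝ) (s : ZMod (2 ^ k)) : ℝ :=
  if s.val < u then 1 else if s.val < u + m then -t else t

noncomputable def bavg (k u m : ℕ) (t : ℝ) (j : ℕ) (s : ZMod (2 ^ k)) : ℝ :=
  ((2 : ℝ) ^ j)⁻¹ * ∑ i ∈ range (2 ^ j), gpool k u m t (s + (i : ZMod (2 ^ k)))

lemma bavg_zero (k u m : ℕ) (t : ℝ) (s : ZMod (2 ^ k)) : bavg k u m t 0 s = gpool k u m t s := by
  simp [bavg]

lemma bavg_succ (k u m : ℕ) (t : ℝ) (j : ℕ) (s : ZMod (2 ^ k)) :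
    bavg k u m t (j + 1) s = (bavg k u m t j s + bavg k u m t j (s + 2 ^ j)) / 2 := by
  unfold bavg
  have h2 : (2 : ℕ) ^ (j + 1) = 2 ^ j + 2 ^ j := by ring
  rw [h2, Finset.sum_range_add]
  have h3 : ∀ i : ℕ, gpool k u m t (s + ((2 ^ j + i : ℕ) : ZMod (2 ^ k))) =
      gpool k u m t (s + 2 ^ j + (i : ZMod (2 ^ k))) := by
    intro i
    congr 1
    push_cast
    ring
  simp only [h3]
  rw [pow_succ, mul_inv]
  ring

lemma sum_range_zmod (N : ℕ) [NeZero N] (F : ZMod N → ℝ) :
    ∑ i ∈ range N, F (i : ZMod N) = ∑ x : ZMod N, F x := by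
  refine Finset.sum_nbij' (fun i => (i : ZMod N)) (fun x => x.val) ?_ ?_ ?_ ?_ ?_
  · intro a _
    exact mem_univ _
  · intro x _
    exact mem_range.2 (ZMod.val_lt x)
  · intro a ha
    exact ZMod.val_natCast_of_lt (mem_range.1 ha)
  · intro x _
    exact ZMod.natCast_zmod_val x
  · intro a _
    rfl

lemma bavg_top (k u m : ℕ) (t : ℝ) (h : u + m ≤ 2 ^ k) (ht : t * (u + 2 * m) = u)
    (s : ZMod (2 ^ k)) : bavg k u m t k s = t := by
  have : NeZero (2 ^ k) := ⟨by positivity⟩
  unfold bavg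
  have h0 : ∑ x : ZMod (2 ^ k), gpool k u m t (s + x) = ∑ x : ZMod (2 ^ k), gpool k u m t x :=
    Equiv.sum_comp (Equiv.addLeft s) (gpool k u m t)
  rw [sum_range_zmod (2 ^ k) (fun x => gpool k u m t (s + x)), h0,
    ← sum_range_zmod (2 ^ k) (gpool k u m t)]
  have h1 : ∑ i ∈ range (2 ^ k), gpool k u m t (i : ZMod (2 ^ k)) =
      ∑ i ∈ range (2 ^ k), (if i < u then (1 : ℝ) else if i < u + m then -t else t) := by
    apply Finset.sum_congr rfl
    intro i hi
    unfold gpool
    rw [ZMod.val_natCast_of_lt (mem_range.1 hi)]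
  rw [h1]
  obtain ⟨w, hw⟩ : ∃ w, 2 ^ k = u + (m + w) := ⟨2 ^ k - (u + m), by omega⟩
  have hwR : ((2 : ℝ) ^ k) = u + (m + w) := by exact_mod_cast hw
  rw [hw, Finset.sum_range_add, Finset.sum_range_add]
  have e1 : ∑ x ∈ range u, (if x < u then (1 : ℝ) else if x < u + m then -t else t) = u := by
    rw [Finset.sum_congr rfl (g := fun _ => (1 : ℝ))]
    · simp
    · intro x hx
      rw [if_pos (mem_range.1 hx)]
  have e2 : ∑ x ∈ range m, (if u + x < u then (1 : ℝ) else if u + x < u + m then -t else t)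
      = m * (-t) := by
    rw [Finset.sum_congr rfl (g := fun _ => (-t : ℝ))]
    · simp
    · intro x hx
      have := mem_range.1 hx
      rw [if_neg (by omega), if_pos (by omega)]
  have e3 : ∑ x ∈ range w, (if u + (m + x) < u then (1 : ℝ) else
      if u + (m + x) < u + m then -t else t) = w * t := by
    rw [Finset.sum_congr rfl (g := fun _ => (t : ℝ))]
    · simp
    · intro x _
      rw [if_neg (by omega), if_neg (by omega)]
  rw [e1, e2, e3, hwR]
  have hpos : (0 : ℝ) < u + (m + w) := by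
    rw [← hwR]; positivity
  rw [inv_mul_eq_iff_eq_mul₀ hpos.ne']
  linarith

end Vale.Agent.P058
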