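import Vale.Agent.P058.Config
import Vale.Agent.P058.Pool

/-!
# The butterfly configuration (task F2)

`kite_ramsey_nat`.  Let `t = u / (u + 2 m)`, `k = u + m` (so `u + m ≤ 2 ^ k`), `S = ZMod (2 ^ k)`,
`Lam = Fin (k + 1) × Bool`, `ρ (j, β) = (j - 1, β)` (cyclic), and with `b_j = bavg k u m t j`
* `a (j, β, s) = b_j s`,
* `c = a` except `c (0, β, s) = -1` when `s.val < u` (a sign change of `a`, as `b_0 = gpool`),
* `b (j, β, s) = b_(j-1) (s + vB (j, β))` for `j ≥ 1`, with `vB (j, false) = 0`,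
  `vB (j, true) = 2 ^ (j - 1)`, and `b (0, β, s) = η s * t` where `η s = -1` iff
  `u ≤ s.val < u + m`;  so `b = sign εB (transl vB (shift a))` because `b_k = t`,
* `d` the same with `vD (j, false) = 2 ^ (j - 1)`, `vD (j, true) = 0`.
Then `b + d = (1 + t) a + (1 - t) c` (levels `j ≥ 1`: `bavg_succ`; level `0`: three cases),
the swap of the Boolean coordinate fixes `a`, `c` and exchanges `b`, `d`, hence the two equalities of
inner products (`Equiv.sum_comp`), and `a ≠ c` at `(0, false, 0)`.  Apply `ramsey_of_config` to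
`(a, b, c, d)` for `t` and to `(c, b, a, d)` for `-t`.
-/

namespace Vale.Agent.P058

open Finset

namespace Butterfly

/-- the index set of levels, doubled. -/
abbrev Lam (k : ℕ) := Fin (k + 1) × Bool

/-- the cyclic group of translations. -/
abbrev S (k : ℕ) := ZMod (2 ^ k)

/-- the cyclic shift of the levels. -/
def rho (k : ℕ) : Equiv.Perm (Lam k) :=
  (Equiv.subRight (1 : Fin (k + 1))).prodCongr (Equiv.refl Bool)

/-- the swap of the Boolean coordinate. -/
def swp (k : ℕ) : Equiv.Perm (Lam k × S k) :=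
  ((Equiv.refl (Fin (k + 1))).prodCongr Equiv.boolNot).prodCongr (Equiv.refl (S k))

noncomputable def va (k u m : ℕ) (t : ℝ) : Lam k × S k → ℝ :=
  fun ω => bavg k u m t (ω.1.1 : ℕ) ω.2

def epsC (k u : ℕ) : Lam k × S k → ℤˣ :=
  fun ω => if ω.1.1 = 0 ∧ ω.2.val < u then -1 else 1

def epsB (k u m : ℕ) : Lam k × S k → ℤˣ :=
  fun ω => if ω.1.1 = 0 ∧ u ≤ ω.2.val ∧ ω.2.val < u + m then -1 else 1

def vB (k : ℕ) : Lam k → S k := fun l => if l.2 = true then 2 ^ ((l.1 : ℕ) - 1) else 0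

def vD (k : ℕ) : Lam k → S k := fun l => if l.2 = true then 0 else 2 ^ ((l.1 : ℕ) - 1)

noncomputable def vc (k u m : ℕ) (t : ℝ) : Lam k × S k → ℝ :=
  fun ω => ((epsC k u ω : ℤ) : ℝ) * va k u m t ω

noncomputable def vb (k u m : ℕ) (t : ℝ) : Lam k × S k → ℝ :=
  fun ω => ((epsB k u m ω : ℤ) : ℝ) * va k u m t (rho k ω.1, ω.2 + vB k ω.1)

noncomputable def vd (k u m : ℕ) (t : ℝ) : Lam k × S k → ℝ :=
  fun ω => ((epsB k u m ω : ℤ) : ℝ) * va k u m t (rho k ω.1, ω.2 + vD k ω.1)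

lemma reach_c (k u m : ℕ) (t : ℝ) : Reach (rho k) (va k u m t) (vc k u m t) :=
  Reach.sign (epsC k u) Reach.base

lemma reach_b (k u m : ℕ) (t : ℝ) : Reach (rho k) (va k u m t) (vb k u m t) :=
  Reach.sign (epsB k u m) (Reach.transl (vB k) (Reach.shift Reach.base))

lemma reach_d (k u m : ℕ) (t : ℝ) : Reach (rho k) (va k u m t) (vd k u m t) :=
  Reach.sign (epsB k u m) (Reach.transl (vD k) (Reach.shift Reach.base))

lemma va_swp (k u m : ℕ) (t : ℝ) (ω : Lam k × S k) : va k u m t (swp k ω) = va k u m t ω := rfl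

lemma vc_swp (k u m : ℕ) (t : ℝ) (ω : Lam k × S k) : vc k u m t (swp k ω) = vc k u m t ω := rfl

lemma vb_swp (k u m : ℕ) (t : ℝ) (ω : Lam k × S k) : vb k u m t (swp k ω) = vd k u m t ω := by
  obtain ⟨⟨j, β⟩, s⟩ := ω
  cases β <;> simp [vb, vd, swp, vB, vD, epsB, rho, va]

lemma sum_ab (k u m : ℕ) (t : ℝ) :
    ∑ ω, va k u m t ω * vb k u m t ω = ∑ ω, va k u m t ω * vd k u m t ω := by
  rw [← Equiv.sum_comp (swp k)]
  refine Finset.sum_congr rfl fun ω _ => ?_
  rw [va_swp, vb_swp]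

lemma sum_cb (k u m : ℕ) (t : ℝ) :
    ∑ ω, vc k u m t ω * vb k u m t ω = ∑ ω, vc k u m t ω * vd k u m t ω := by
  rw [← Equiv.sum_comp (swp k)]
  refine Finset.sum_congr rfl fun ω _ => ?_
  rw [vc_swp, vb_swp]

lemma rel_zero (k u m : ℕ) (t : ℝ) (h : u + m ≤ 2 ^ k) (ht : t * (u + 2 * m) = u)
    (β : Bool) (s : S k) :
    vb k u m t ((0, β), s) + vd k u m t ((0, β), s)
      = (1 + t) * va k u m t ((0, β), s) + (1 - t) * vc k u m t ((0, β), s) := by
  have h1 : ∀ x : S k, va k u m t (rho k (0, β), x) = t := by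
    intro x
    have : (((rho k (0, β)).1 : Fin (k + 1)) : ℕ) = k := by
      simp [rho, Fin.coe_sub_one]
    simp only [va, this]
    exact bavg_top k u m t h ht x
  have h2 : va k u m t ((0, β), s) = gpool k u m t s := by
    simp only [va, Fin.val_zero]
    exact bavg_zero k u m t s
  simp only [vb, vd, vc, h1, h2, epsB, epsC, gpool]
  by_cases c1 : s.val < u
  · have c2 : ¬ (u ≤ s.val) := by omega
    simp [c1, c2]
    ring
  · have c2 : u ≤ s.val := by omega
    by_cases c3 : s.val < u + m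
    · simp [c1, c2, c3]
      ring
    · simp [c1, c3]
      ring

lemma rel_succ (k u m : ℕ) (t : ℝ) (j : Fin (k + 1)) (hj : j ≠ 0) (β : Bool) (s : S k) :
    vb k u m t ((j, β), s) + vd k u m t ((j, β), s)
      = (1 + t) * va k u m t ((j, β), s) + (1 - t) * vc k u m t ((j, β), s) := by
  obtain ⟨i, hi⟩ : ∃ i : ℕ, (j : ℕ) = i + 1 := by
    have : (j : ℕ) ≠ 0 := fun h => hj (Fin.ext h)
    exact ⟨(j : ℕ) - 1, by omega⟩
  have h0 : (((rho k (j, β)).1 : Fin (k + 1)) : ℕ) = i := by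
    simp [rho, Fin.coe_sub_one, hj, hi]
  have h1 : ∀ x : S k, va k u m t (rho k (j, β), x) = bavg k u m t i x := by
    intro x
    simp only [va, h0]
  have h2 : va k u m t ((j, β), s) = (bavg k u m t i s + bavg k u m t i (s + 2 ^ i)) / 2 := by
    simp only [va, hi]
    exact bavg_succ k u m t i s
  simp only [vb, vd, vc, h1, h2, epsB, epsC, vB, vD, hi]
  cases β <;> simp [hj] <;> ring

lemma rel (k u m : ℕ) (t : ℝ) (h : u + m ≤ 2 ^ k) (ht : t * (u + 2 * m) = u)
    (ω : Lam k × S k) :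
    vb k u m t ω + vd k u m t ω = (1 + t) * va k u m t ω + (1 - t) * vc k u m t ω := by
  obtain ⟨⟨j, β⟩, s⟩ := ω
  by_cases hj : j = 0
  · subst hj
    exact rel_zero k u m t h ht β s
  · exact rel_succ k u m t j hj β s

lemma a_ne_c (k u m : ℕ) (t : ℝ) (hu : 0 < u) : va k u m t ≠ vc k u m t := by
  intro h
  have h1 := congrFun h ((0, false), 0)
  have h2 : va k u m t ((0, false), 0) = 1 := by
    simp only [va, Fin.val_zero]
    rw [bavg_zero]
    simp [gpool, hu]
  simp only [vc, h2, epsC] at h1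
  simp [hu] at h1
  norm_num at h1

end Butterfly

open Butterfly in
theorem kite_ramsey_nat (u m : ℕ) (hu : 0 < u) (hm : 0 < m) (s : ℝ)
    (hts : ((u : ℝ) / (u + 2 * m)) ^ 2 + s ^ 2 = 1) (hs : s ≠ 0) :
    IsRamsey (kite ((u : ℝ) / (u + 2 * m)) s) ∧ IsRamsey (kite (-((u : ℝ) / (u + 2 * m))) s) := by
  set t : ℝ := (u : ℝ) / (u + 2 * m) with ht_def
  have hpos : (0 : ℝ) < (u : ℝ) + 2 * m := by positivity
  have ht : t * (u + 2 * m) = u := by
    rw [ht_def]
    field_simp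
  have h : u + m ≤ 2 ^ (u + m) := Nat.lt_two_pow_self.le
  constructor
  · exact ramsey_of_config (rho (u + m)) t s hts hs (va (u + m) u m t) (va (u + m) u m t)
      (vb (u + m) u m t) (vc (u + m) u m t) (vd (u + m) u m t) Reach.base (reach_b _ _ _ _)
      (reach_c _ _ _ _) (reach_d _ _ _ _) (rel _ _ _ _ h ht) (sum_ab _ _ _ _) (sum_cb _ _ _ _)
      (a_ne_c _ _ _ _ hu)
  · refine ramsey_of_config (rho (u + m)) (-t) s (by rw [neg_sq]; exact hts) hs (va (u + m) u m t)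
      (vc (u + m) u m t) (vb (u + m) u m t) (va (u + m) u m t) (vd (u + m) u m t)
      (reach_c _ _ _ _) (reach_b _ _ _ _) Reach.base (reach_d _ _ _ _) ?_ (sum_cb _ _ _ _)
      (sum_ab _ _ _ _) (a_ne_c _ _ _ _ hu).symm
    intro ω
    rw [rel _ _ _ _ h ht ω]
    ring

end Vale.Agent.P058
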