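import Vale.Agent.P058.Realize
import Vale.Agent.P058.BlockSet

/-!
# From a configuration of reachable vectors to a Ramsey kite (task C)

`ramsey_of_config`: as `subtransitive_of_config` in `BlockSet.lean`.  Put `r = 2 / ‖a - c‖`
(norm in `EuclideanSpace ℝ (Lam × S)`, vectors via `WithLp.toLp 2`), apply `kite_isometry` to
`r • a, r • b, r • c, r • d` (all norms agree by `Reach.sum_sq`), get `g₀ : E 2 → EuclideanSpace`,
and apply `isRamsey_of_reach` with base vector `r • v` (`Reach.smul`) and `g p = g₀ p` as a function.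
-/

namespace Vale.Agent.P058

open Finset
open scoped RealInnerProductSpace

variable {Lam S : Type}

lemma Reach.sum_sq [Fintype Lam] [Fintype S] [AddCommGroup S] {ρ : Equiv.Perm Lam}
    {a y : Lam × S → ℝ} (h : Reach ρ a y) : ∑ ω, y ω ^ 2 = ∑ ω, a ω ^ 2 := by
  induction h with
  | base => rfl
  | sign ε h ih =>
    rw [← ih]
    refine Finset.sum_congr rfl fun ω _ => ?_
    rcases Int.units_eq_one_or (ε ω) with h1 | h1 <;> simp [h1]
  | transl v h ih =>
    rename_i y
    rw [← ih]
    exact Equiv.sum_comp (Vale.Agent.P058.transl v) (fun ω => y ω ^ 2)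
  | shift h ih =>
    rename_i y
    rw [← ih]
    exact Equiv.sum_comp (shiftP (S := S) ρ) (fun ω => y ω ^ 2)

lemma Reach.smul [AddCommGroup S] {ρ : Equiv.Perm Lam}
    {a y : Lam × S → ℝ} (r : ℝ) (h : Reach ρ a y) :
    Reach ρ (fun ω => r * a ω) (fun ω => r * y ω) := by
  induction h with
  | base => exact Reach.base
  | sign ε h ih =>
    rename_i y
    have e : (fun ω => r * (((ε ω : ℤ) : ℝ) * y ω)) = fun ω => ((ε ω : ℤ) : ℝ) * (r * y ω) := by
      funext ω; ring
    rw [e]
    exact Reach.sign ε ih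
  | transl v h ih => exact Reach.transl v ih
  | shift h ih => exact Reach.shift ih

theorem ramsey_of_config [Fintype Lam] [Fintype S] [AddCommGroup S] (ρ : Equiv.Perm Lam)
    (t s : ℝ) (hts : t ^ 2 + s ^ 2 = 1) (hs : s ≠ 0) (v a b c d : Lam × S → ℝ)
    (ha : Reach ρ v a) (hb : Reach ρ v b) (hc : Reach ρ v c) (hd : Reach ρ v d)
    (hrel : ∀ ω, b ω + d ω = (1 + t) * a ω + (1 - t) * c ω)
    (hab : ∑ ω, a ω * b ω = ∑ ω, a ω * d ω) (hcb : ∑ ω, c ω * b ω = ∑ ω, c ω * d ω)
    (hne : a ≠ c) : IsRamsey (kite t s) := by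
  classical
  let T : (Lam × S → ℝ) → EuclideanSpace ℝ (Lam × S) := fun x => WithLp.toLp 2 x
  have hT : ∀ x ω, T x ω = x ω := fun x ω => rfl
  have hne' : T a ≠ T c := by
    intro h
    apply hne
    funext ω
    have := congrArg (fun z : EuclideanSpace ℝ (Lam × S) => z ω) h
    simpa [hT] using this
  have hpos : 0 < ‖T a - T c‖ := norm_pos_iff.2 (sub_ne_zero.2 hne')
  set r : ℝ := 2 / ‖T a - T c‖ with hr
  have hrpos : 0 < r := by positivity
  have hnorm : ∀ {x : Lam × S → ℝ}, Reach ρ v x → ‖T x‖ = ‖T v‖ := by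
    intro x hx
    rw [EuclideanSpace.norm_eq, EuclideanSpace.norm_eq]
    congr 1
    simp only [hT, Real.norm_eq_abs, sq_abs]
    exact hx.sum_sq
  have hn : ∀ {x : Lam × S → ℝ}, Reach ρ v x → ‖r • T x‖ = ‖r • T a‖ := by
    intro x hx
    rw [norm_smul, norm_smul, hnorm hx, hnorm ha]
  have hinner : ∀ x y : Lam × S → ℝ, ⟪T x, T y⟫ = ∑ ω, x ω * y ω := by
    intro x y
    rw [PiLp.inner_apply]
    refine Finset.sum_congr rfl fun ω _ => ?_
    simp [hT, mul_comm]
  have hrel' : T b + T d = (1 + t) • T a + (1 - t) • T c := by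
    ext ω
    simpa [hT] using hrel ω
  obtain ⟨g, hg, ga, gc, gb, gd⟩ := kite_isometry t s hts hs (r • T a) (r • T b) (r • T c) (r • T d)
    (hn hb) (hn hc) (hn hd)
    (by rw [← smul_add, hrel', smul_add, smul_comm, smul_comm r (1 - t)])
    (by simp only [inner_smul_left, inner_smul_right, hinner, hab])
    (by simp only [inner_smul_left, inner_smul_right, hinner, hcb])
    (by rw [← smul_sub, norm_smul, Real.norm_of_nonneg hrpos.le, hr]; field_simp)
  refine isRamsey_of_reach (kite t s) ρ (fun ω => r * v ω) (fun p ω => g p ω) ?_ ?_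
  · intro p hp
    simp only [kite, Set.mem_insert_iff, Set.mem_singleton_iff] at hp
    rcases hp with rfl | rfl | rfl | rfl
    · rw [ga]; exact Reach.smul r ha
    · rw [gc]; exact Reach.smul r hc
    · rw [gb]; exact Reach.smul r hb
    · rw [gd]; exact Reach.smul r hd
  · intro p _ q _
    rw [← hg p q, EuclideanSpace.dist_eq, Real.sq_sqrt (Finset.sum_nonneg fun _ _ => sq_nonneg _)]
    refine Finset.sum_congr rfl fun ω _ => ?_
    rw [Real.dist_eq, sq_abs]

end Vale.Agent.P058
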