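import Mathlib

/-!
# From counts to a design on `ZMod (2 ^ k)` (task K)

Let `Q = Fin u ⊕ (Σ δ : Z, Fin (Nn δ))`; its cardinality is `u + ∑ δ, Nn δ = 2 ^ k`, so there is an
equivalence `e : ZMod (2 ^ k) ≃ Q` (`Fintype.equivOfCardEq`, `ZMod.card`).  On `Q` define
`f (inl _) = 0`, `η (inl _) z = σ z`, `sp (inl _) z = true`, and `f (inr ⟨δ, o⟩) = δ`,
`η (inr ⟨δ, o⟩) z = if o < p δ z then 1 else -1`, `sp (inr _) z = false`; transport along `e`.
The sum splits by `Equiv.sum_comp`, `Fintype.sum_sum_type`, `Fintype.sum_sigma`, and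
`∑ o : Fin n, (if o < p then 1 else -1) = 2 p - n` for `p ≤ n`.
-/

namespace Vale.Agent.P058

open Finset

lemma sum_fin_sign (n p : ℕ) (hp : p ≤ n) :
    ∑ o : Fin n, (((if (o : ℕ) < p then (1 : ℤˣ) else -1 : ℤˣ) : ℤ) : ℝ) = 2 * (p : ℝ) - n := by
  have h1 : ∀ o : Fin n, (((if (o : ℕ) < p then (1 : ℤˣ) else -1 : ℤˣ) : ℤ) : ℝ)
      = (fun i : ℕ => if i < p then (1 : ℝ) else -1) o := by
    intro o
    by_cases h : (o : ℕ) < p <;> simp [h]
  simp only [h1]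
  rw [Fin.sum_univ_eq_sum_range (fun i : ℕ => if i < p then (1 : ℝ) else -1) n]
  obtain ⟨w, rfl⟩ : ∃ w, n = p + w := ⟨n - p, by omega⟩
  rw [Finset.sum_range_add]
  have e1 : ∑ x ∈ range p, (if x < p then (1 : ℝ) else -1) = p := by
    rw [Finset.sum_congr rfl (g := fun _ => (1 : ℝ))]
    · simp
    · intro x hx
      rw [if_pos (mem_range.1 hx)]
  have e2 : ∑ x ∈ range w, (if p + x < p then (1 : ℝ) else -1) = -w := by
    rw [Finset.sum_congr rfl (g := fun _ => (-1 : ℝ))]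
    · simp
    · intro x _
      rw [if_neg (by omega)]
  rw [e1, e2]
  push_cast
  ring

theorem design_of_counts (k : ℕ) (Z : Type) [Fintype Z] [AddCommGroup Z] (x : ℝ) (u : ℕ)
    (σ : Z → ℤˣ) (Nn : Z → ℕ) (p : Z → Z → ℕ) (hp : ∀ δ z, p δ z ≤ Nn δ)
    (hN : u + ∑ δ, Nn δ = 2 ^ k) (m : Z → ℝ)
    (hm : ∀ z, (2 : ℝ) ^ k * m z = (u : ℝ) * ((σ z : ℤ) : ℝ) * x * m z
      + ∑ δ, (2 * (p δ z : ℝ) - (Nn δ : ℝ)) * m (z + δ)) :
    ∃ (f : ZMod (2 ^ k) → Z) (η : ZMod (2 ^ k) → Z → ℤˣ) (sp : ZMod (2 ^ k) → Z → Bool),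
      (∀ z, (2 : ℝ) ^ k * m z =
        ∑ i, ((η i z : ℤ) : ℝ) * (if sp i z = true then x else 1) * m (z + f i)) ∧
      (0 < u → ∃ i, f i = 0 ∧ ∀ z, sp i z = true) := by
  classical
  have : NeZero (2 ^ k) := ⟨by positivity⟩
  have hcard : Fintype.card (ZMod (2 ^ k)) = Fintype.card (Fin u ⊕ (Σ δ : Z, Fin (Nn δ))) := by
    rw [ZMod.card, Fintype.card_sum, Fintype.card_sigma, Fintype.card_fin]
    simp [hN]
  let e : ZMod (2 ^ k) ≃ (Fin u ⊕ (Σ δ : Z, Fin (Nn δ))) := Fintype.equivOfCardEq hcard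
  let f' : (Fin u ⊕ (Σ δ : Z, Fin (Nn δ))) → Z := Sum.elim (fun _ => 0) (fun a => a.1)
  let η' : (Fin u ⊕ (Σ δ : Z, Fin (Nn δ))) → Z → ℤˣ :=
    Sum.elim (fun _ z => σ z) (fun a z => if (a.2 : ℕ) < p a.1 z then 1 else -1)
  let sp' : (Fin u ⊕ (Σ δ : Z, Fin (Nn δ))) → Z → Bool := Sum.elim (fun _ _ => true) (fun _ _ => false)
  refine ⟨fun i => f' (e i), fun i => η' (e i), fun i => sp' (e i), ?_, ?_⟩
  · intro z
    rw [hm z, Equiv.sum_comp e (fun a => ((η' a z : ℤ) : ℝ) * (if sp' a z = true then x else 1)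
      * m (z + f' a)), Fintype.sum_sum_type, Fintype.sum_sigma]
    congr 1
    · simp [f', η', sp']
      ring
    · refine Finset.sum_congr rfl fun δ _ => ?_
      simp only [f', η', sp', Sum.elim_inr]
      rw [← sum_fin_sign (Nn δ) (p δ z) (hp δ z), Finset.sum_mul]
      refine Finset.sum_congr rfl fun o _ => ?_
      simp
  · intro hu
    refine ⟨e.symm (Sum.inl ⟨0, hu⟩), ?_, ?_⟩
    · simp [f']
    · intro z
      simp [sp']

end Vale.Agent.P058
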