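import Mathlib

namespace Vale.Agent.P058

/-- Euclidean space of dimension `n`. -/
abbrev E (n : ℕ) := EuclideanSpace ℝ (Fin n)

/-- A finite set `X` of points of `E n` is transitive if the isometries of `E n` mapping `X` onto
itself act transitively on `X`. -/
def IsTransitiveSet {n : ℕ} (X : Set (E n)) : Prop :=
  X.Finite ∧ ∀ x ∈ X, ∀ y ∈ X, ∃ f : E n ≃ᵢ E n, f '' X = X ∧ f x = y

/-- `A` is subtransitive if it is congruent to a subset of a finite transitive set
(in a Euclidean space of some dimension). -/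
def IsSubtransitive {d : ℕ} (A : Set (E d)) : Prop :=
  ∃ (n : ℕ) (X : Set (E n)) (g : E d → E n), IsTransitiveSet X ∧ (∀ a ∈ A, g a ∈ X) ∧
    ∀ a ∈ A, ∀ b ∈ A, dist (g a) (g b) = dist a b

/-- `A` is spherical if it lies on a sphere. -/
def IsSpherical {d : ℕ} (A : Set (E d)) : Prop :=
  ∃ (z : E d) (r : ℝ), ∀ a ∈ A, dist a z = r

/-- The right kite inscribed in the unit circle with vertices `(1,0)`, `(-1,0)`, `(t,s)`, `(t,-s)`. -/
def kite (t s : ℝ) : Set (E 2) :=
  {!₂[1, 0], !₂[-1, 0], !₂[t, s], !₂[t, -s]}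

end Vale.Agent.P058
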