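import Vale.Agent.P058.Pool

/-!
# Moving averages on `ZMod (2 ^ k)` of a general function (task P)
-/

namespace Vale.Agent.P058

open Finset

noncomputable def mavg (k : ℕ) (g : ZMod (2 ^ k) → ℝ) (j : ℕ) (s : ZMod (2 ^ k)) : ℝ :=
  ((2 : ℝ) ^ j)⁻¹ * ∑ i ∈ range (2 ^ j), g (s + (i : ZMod (2 ^ k)))

lemma mavg_zero (k : ℕ) (g : ZMod (2 ^ k) → ℝ) (s : ZMod (2 ^ k)) : mavg k g 0 s = g s := by
  simp [mavg]

lemma mavg_succ (k : ℕ) (g : ZMod (2 ^ k) → ℝ) (j : ℕ) (s : ZMod (2 ^ k)) :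
    mavg k g (j + 1) s = (mavg k g j s + mavg k g j (s + 2 ^ j)) / 2 := by
  unfold mavg
  have h2 : (2 : ℕ) ^ (j + 1) = 2 ^ j + 2 ^ j := by ring
  rw [h2, Finset.sum_range_add]
  have h3 : ∀ i : ℕ, g (s + ((2 ^ j + i : ℕ) : ZMod (2 ^ k))) =
      g (s + 2 ^ j + (i : ZMod (2 ^ k))) := by
    intro i
    congr 1
    push_cast
    ring
  simp only [h3]
  rw [pow_succ, mul_inv]
  ring

lemma mavg_top (k : ℕ) (g : ZMod (2 ^ k) → ℝ) (s : ZMod (2 ^ k)) :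
    mavg k g k s = ((2 : ℝ) ^ k)⁻¹ * ∑ x, g x := by
  have : NeZero (2 ^ k) := ⟨by positivity⟩
  unfold mavg
  have h0 : ∑ x : ZMod (2 ^ k), g (s + x) = ∑ x : ZMod (2 ^ k), g x :=
    Equiv.sum_comp (Equiv.addLeft s) g
  rw [sum_range_zmod (2 ^ k) (fun x => g (s + x)), h0]

end Vale.Agent.P058
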