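import Vale.Agent.P058.SubtransG
import Vale.Agent.P058.PoolG
import Vale.Agent.P058.Butterfly

/-!
# The butterfly configuration with types (task D)

Generalisation of `Butterfly.lean` (copy its structure).  Data: a pool `ZMod (2 ^ k)`, a finite
commutative group `Z` of types, `f i : Z` (type change at pool position `i`), signs `η i z`, special
positions `sp i z`, and values `m z` with the fixed point equation `hm`.
Put `g i z = η i z * (if sp i z then t⁻¹ else 1) * m (z + f i)`.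
`Lam0 = Fin (k + 1) × Bool`, `S0 = ZMod (2 ^ k)`, coordinates `ω = ((l, i), z) : (Lam0 × S0) × Z`,
`P = twoPerms (rho k)` with `rho k` the cyclic shift of `Butterfly.lean`.
* `va ((l, i), z) = mavg k (fun i' => g i' z) l.1 i`,
* `vc = ` sign change of `va` at the `ω` with `l.1 = 0` and `sp i z`,
* `vb ((l, i), z) = epsB * va ((rho k l, i + vB k l), z + φ (l, i))`, with `φ (l, i) = f i` if
  `l.1 = 0` and `0` otherwise, `epsB = η i z` if `l.1 = 0` and `1` otherwise; so
  `vb = sign epsB (transl φ (perm (transl (vB k)) (perm (shiftP (rho k)) base)))`,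
* `vd` the same with `vD k`.
Level `0`: `va ((rho k l, _), z + f i) = mavg .. k _ = m (z + f i)` by `mavg_top` and `hm`, so
`vb = vd = η i z * m (z + f i)`, while `va = g i z`; check the relation in the two cases
(`sp i z` or not, use `t ≠ 0`).  Levels `≥ 1`: `mavg_succ`.  The swap of the Boolean coordinate gives
the two inner product identities.  `va ≠ vc` at the special position given by `hne`.
Conclude with `kite_map_of_configG`, `isRamsey_of_reachG` (with `towerOK_two`) and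
`subtransitive_of_reachG`.
-/

namespace Vale.Agent.P058

open Finset

namespace Design

open Butterfly

variable (k : ℕ) {Z : Type} [AddCommGroup Z] (t : ℝ)
  (f : ZMod (2 ^ k) → Z) (η : ZMod (2 ^ k) → Z → ℤˣ) (sp : ZMod (2 ^ k) → Z → Bool) (m : Z → ℝ)

/-- the index set of all coordinates. -/
abbrev Om (k : ℕ) (Z : Type) := (Lam k × S k) × Z

/-- the pool function. -/
noncomputable def gg (i : ZMod (2 ^ k)) (z : Z) : ℝ :=
  ((η i z : ℤ) : ℝ) * (if sp i z = true then t⁻¹ else 1) * m (z + f i)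

noncomputable def wa : Om k Z → ℝ :=
  fun ω => mavg k (fun i' => gg k t f η sp m i' ω.2) (ω.1.1.1 : ℕ) ω.1.2

def eC : Om k Z → ℤˣ :=
  fun ω => if ω.1.1.1 = 0 ∧ sp ω.1.2 ω.2 = true then -1 else 1

def eB : Om k Z → ℤˣ :=
  fun ω => if ω.1.1.1 = 0 then η ω.1.2 ω.2 else 1

def phi : Lam k × S k → Z := fun l => if l.1.1 = 0 then f l.2 else 0

noncomputable def wc : Om k Z → ℝ :=
  fun ω => ((eC k sp ω : ℤ) : ℝ) * wa k t f η sp m ω

noncomputable def wb : Om k Z → ℝ :=
  fun ω => ((eB k η ω : ℤ) : ℝ) *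
    wa k t f η sp m ((rho k ω.1.1, ω.1.2 + vB k ω.1.1), ω.2 + phi k f ω.1)

noncomputable def wd : Om k Z → ℝ :=
  fun ω => ((eB k η ω : ℤ) : ℝ) *
    wa k t f η sp m ((rho k ω.1.1, ω.1.2 + vD k ω.1.1), ω.2 + phi k f ω.1)

/-- the swap of the Boolean coordinate. -/
def sw (k : ℕ) (Z : Type) : Equiv.Perm (Om k Z) :=
  (swp k).prodCongr (Equiv.refl Z)

lemma reach_c : ReachG (twoPerms (S0 := S k) (rho k)) (wa k t f η sp m) (wc k t f η sp m) :=
  ReachG.sign (eC k sp) ReachG.base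

lemma reach_b : ReachG (twoPerms (S0 := S k) (rho k)) (wa k t f η sp m) (wb k t f η sp m) :=
  ReachG.sign (eB k η) (ReachG.transl (phi k f)
    (ReachG.perm (transl (vB k)) (Or.inl ⟨vB k, rfl⟩)
      (ReachG.perm (shiftP (rho k)) (Or.inr rfl) ReachG.base)))

lemma reach_d : ReachG (twoPerms (S0 := S k) (rho k)) (wa k t f η sp m) (wd k t f η sp m) :=
  ReachG.sign (eB k η) (ReachG.transl (phi k f)
    (ReachG.perm (transl (vD k)) (Or.inl ⟨vD k, rfl⟩)
      (ReachG.perm (shiftP (rho k)) (Or.inr rfl) ReachG.base)))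

lemma wa_sw (ω : Om k Z) : wa k t f η sp m (sw k Z ω) = wa k t f η sp m ω := rfl

lemma wc_sw (ω : Om k Z) : wc k t f η sp m (sw k Z ω) = wc k t f η sp m ω := rfl

lemma wb_sw (ω : Om k Z) : wb k t f η sp m (sw k Z ω) = wd k t f η sp m ω := by
  obtain ⟨⟨⟨j, β⟩, s⟩, z⟩ := ω
  cases β <;> simp [wb, wd, sw, swp, vB, vD, eB, rho, wa, phi]

lemma sum_ab [Fintype Z] :
    ∑ ω, wa k t f η sp m ω * wb k t f η sp m ω = ∑ ω, wa k t f η sp m ω * wd k t f η sp m ω := by
  rw [← Equiv.sum_comp (sw k Z)]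
  refine Finset.sum_congr rfl fun ω _ => ?_
  rw [wa_sw, wb_sw]

lemma sum_cb [Fintype Z] :
    ∑ ω, wc k t f η sp m ω * wb k t f η sp m ω = ∑ ω, wc k t f η sp m ω * wd k t f η sp m ω := by
  rw [← Equiv.sum_comp (sw k Z)]
  refine Finset.sum_congr rfl fun ω _ => ?_
  rw [wc_sw, wb_sw]

lemma wa_top (hm : ∀ z, (2 : ℝ) ^ k * m z =
      ∑ i, ((η i z : ℤ) : ℝ) * (if sp i z = true then t⁻¹ else 1) * m (z + f i))
    (β : Bool) (x : S k) (z : Z) : wa k t f η sp m ((rho k (0, β), x), z) = m z := by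
  have h0 : (((rho k (0, β)).1 : Fin (k + 1)) : ℕ) = k := by
    simp [rho, Fin.coe_sub_one]
  simp only [wa, h0]
  rw [mavg_top]
  have h2 : (2 : ℝ) ^ k ≠ 0 := by positivity
  have h3 : ∑ x, gg k t f η sp m x z = (2 : ℝ) ^ k * m z := by
    rw [hm z]
    rfl
  rw [h3]
  field_simp

lemma rel_zero (ht : t ≠ 0) (hm : ∀ z, (2 : ℝ) ^ k * m z =
      ∑ i, ((η i z : ℤ) : ℝ) * (if sp i z = true then t⁻¹ else 1) * m (z + f i))
    (β : Bool) (s : S k) (z : Z) :
    wb k t f η sp m (((0, β), s), z) + wd k t f η sp m (((0, β), s), z)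
      = (1 + t) * wa k t f η sp m (((0, β), s), z) + (1 - t) * wc k t f η sp m (((0, β), s), z) := by
  have h2 : wa k t f η sp m (((0, β), s), z) = gg k t f η sp m s z := by
    simp only [wa, Fin.val_zero]
    exact mavg_zero k _ s
  simp only [wb, wd, wc, wa_top k t f η sp m hm, h2, eB, eC, phi, gg]
  by_cases c1 : sp s z = true
  · simp [c1]
    field_simp
    ring
  · simp [c1]
    ring

lemma rel_succ (j : Fin (k + 1)) (hj : j ≠ 0) (β : Bool) (s : S k) (z : Z) :
    wb k t f η sp m (((j, β), s), z) + wd k t f η sp m (((j, β), s), z)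
      = (1 + t) * wa k t f η sp m (((j, β), s), z) + (1 - t) * wc k t f η sp m (((j, β), s), z) := by
  obtain ⟨i, hi⟩ : ∃ i : ℕ, (j : ℕ) = i + 1 := by
    have : (j : ℕ) ≠ 0 := fun h => hj (Fin.ext h)
    exact ⟨(j : ℕ) - 1, by omega⟩
  have h0 : (((rho k (j, β)).1 : Fin (k + 1)) : ℕ) = i := by
    simp [rho, Fin.coe_sub_one, hj, hi]
  have h1 : ∀ (x : S k) (z' : Z), wa k t f η sp m ((rho k (j, β), x), z')
      = mavg k (fun i' => gg k t f η sp m i' z') i x := by
    intro x z'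
    simp only [wa, h0]
  have h2 : wa k t f η sp m (((j, β), s), z)
      = (mavg k (fun i' => gg k t f η sp m i' z) i s
        + mavg k (fun i' => gg k t f η sp m i' z) i (s + 2 ^ i)) / 2 := by
    simp only [wa, hi]
    exact mavg_succ k _ i s
  simp only [wb, wd, wc, h1, h2, eB, eC, vB, vD, hi, phi]
  cases β <;> simp [hj] <;> ring

lemma rel (ht : t ≠ 0) (hm : ∀ z, (2 : ℝ) ^ k * m z =
      ∑ i, ((η i z : ℤ) : ℝ) * (if sp i z = true then t⁻¹ else 1) * m (z + f i))
    (ω : Om k Z) :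
    wb k t f η sp m ω + wd k t f η sp m ω
      = (1 + t) * wa k t f η sp m ω + (1 - t) * wc k t f η sp m ω := by
  obtain ⟨⟨⟨j, β⟩, s⟩, z⟩ := ω
  by_cases hj : j = 0
  · subst hj
    exact rel_zero k t f η sp m ht hm β s z
  · exact rel_succ k t f η sp m j hj β s z

lemma a_ne_c (ht : t ≠ 0) (hne : ∃ i z, sp i z = true ∧ m (z + f i) ≠ 0) :
    wa k t f η sp m ≠ wc k t f η sp m := by
  obtain ⟨i, z, h1, h2⟩ := hne
  intro h
  have h3 := congrFun h (((0, false), i), z)
  have h4 : wa k t f η sp m (((0, false), i), z) = gg k t f η sp m i z := by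
    simp only [wa, Fin.val_zero]
    exact mavg_zero k _ i
  have h5 : gg k t f η sp m i z ≠ 0 := by
    simp only [gg, h1, if_true]
    have : ((η i z : ℤ) : ℝ) ≠ 0 := by
      rcases Int.units_eq_one_or (η i z) with h | h <;> simp [h]
    exact mul_ne_zero (mul_ne_zero this (inv_ne_zero ht)) h2
  simp only [wc, h4, eC] at h3
  simp [h1] at h3
  apply h5
  linarith

end Design

open Design Butterfly in
theorem kite_of_design (k : ℕ) (Z : Type) [Fintype Z] [AddCommGroup Z] (t : ℝ) (ht : t ≠ 0)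
    (f : ZMod (2 ^ k) → Z) (η : ZMod (2 ^ k) → Z → ℤˣ) (sp : ZMod (2 ^ k) → Z → Bool) (m : Z → ℝ)
    (hm : ∀ z, (2 : ℝ) ^ k * m z =
      ∑ i, ((η i z : ℤ) : ℝ) * (if sp i z = true then t⁻¹ else 1) * m (z + f i))
    (hne : ∃ i z, sp i z = true ∧ m (z + f i) ≠ 0)
    (s : ℝ) (hts : t ^ 2 + s ^ 2 = 1) (hs : s ≠ 0) :
    IsRamsey (kite t s) ∧ IsSubtransitive (kite t s) := by
  obtain ⟨v', g, hg, hd⟩ := kite_map_of_configG (twoPerms (S0 := S k) (rho k)) t s hts hs
    (wa k t f η sp m) (wa k t f η sp m) (wb k t f η sp m) (wc k t f η sp m) (wd k t f η sp m)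
    ReachG.base (reach_b k t f η sp m) (reach_c k t f η sp m) (reach_d k t f η sp m)
    (rel k t f η sp m ht hm) (sum_ab k t f η sp m) (sum_cb k t f η sp m)
    (a_ne_c k t f η sp m ht hne)
  exact ⟨isRamsey_of_reachG (kite t s) _ (towerOK_two (rho k)) v' g hg hd,
    subtransitive_of_reachG (kite t s) _ v' g hg hd⟩

end Vale.Agent.P058
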