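import Mathlib

/-!
# Enumeration of the conjugates, rationality of products (task Q)

`roots_enum`: let `p = (minpoly ℚ t).map (algebraMap ℚ ℝ)`, monic, separable
(`minpoly.irreducible`, `Irreducible.separable`, `Polynomial.Separable.map`), so `p.roots` has no
duplicates (`Polynomial.nodup_roots`) and `p = (p.roots.map (X - C ·)).prod`
(`Polynomial.Splits.eq_prod_roots`).  Let `d = p.roots.card = natDegree > 0`, `Z = ZMod d`, and take an
equivalence of `ZMod d` with the subtype of `p.roots.toFinset`.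

`prod_inv_rat`: `∏ (r - τ⁻¹) = ∏ ((-r) * (r⁻¹ - τ)) / τ = (-r)^d * P(r⁻¹) / ∏ τ` and
`P(0) = ∏ (0 - τ) = (-1)^d ∏ τ`, where `P(q)` (cast to the reals) is `∏ (q - τ j)` by `hP`
(`Polynomial.eval_map`, `Polynomial.eval_prod`, `Polynomial.eval₂_at_apply` or `eval_ratCast_map`).
-/

namespace Vale.Agent.P058

open Finset Polynomial

theorem roots_enum (t : ℝ) (halg : IsAlgebraic ℚ t)
    (hsplit : ((minpoly ℚ t).map (algebraMap ℚ ℝ)).Splits) :
    ∃ (Z : Type) (_ : Fintype Z) (_ : AddCommGroup Z) (τ : Z → ℝ) (z0 : Z),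
      Function.Injective τ ∧ τ z0 = t ∧
      (minpoly ℚ t).map (algebraMap ℚ ℝ) = ∏ z, (X - C (τ z)) := by
  classical
  have hint : IsIntegral ℚ t := halg.isIntegral
  set p : ℝ[X] := (minpoly ℚ t).map (algebraMap ℚ ℝ) with hp
  have hmonic : p.Monic := (minpoly.monic hint).map _
  have hsep : p.Separable := ((minpoly.irreducible hint).separable).map
  have hnodup : p.roots.Nodup := nodup_roots hsep
  have hprod : p = (p.roots.map (fun a => X - C a)).prod := by
    have := hsplit.eq_prod_roots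
    rw [hmonic.leadingCoeff] at this
    simpa using this
  have htroot : t ∈ p.roots := by
    rw [mem_roots hmonic.ne_zero, IsRoot.def, hp, eval_map_algebraMap]
    exact minpoly.aeval ℚ t
  set S : Finset ℝ := p.roots.toFinset with hS
  have htS : t ∈ S := by simpa [hS] using htroot
  have hd : 0 < S.card := Finset.card_pos.mpr ⟨t, htS⟩
  have : NeZero S.card := ⟨hd.ne'⟩
  have hcard : Fintype.card (ZMod S.card) = Fintype.card S := by
    rw [ZMod.card, Fintype.card_coe]
  let e : ZMod S.card ≃ S := Fintype.equivOfCardEq hcard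
  refine ⟨ZMod S.card, inferInstance, inferInstance, fun z => (e z : ℝ), e.symm ⟨t, htS⟩, ?_, ?_, ?_⟩
  · intro a b hab
    exact e.injective (Subtype.ext hab)
  · simp
  · rw [Equiv.prod_comp e (fun s : S => X - C (s : ℝ)), Finset.prod_coe_sort S (fun s => X - C s)]
    conv_lhs => rw [hprod]
    rw [Finset.prod, hS, Multiset.toFinset_val, Multiset.dedup_eq_self.mpr hnodup]

theorem prod_inv_rat {ι : Type} [Fintype ι] (P : ℚ[X]) (τ : ι → ℝ)
    (hP : P.map (algebraMap ℚ ℝ) = ∏ j, (X - C (τ j))) (hτ : ∀ j, τ j ≠ 0) (r : ℚ) (hr : r ≠ 0) :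
    ∏ j, ((r : ℝ) - (τ j)⁻¹) = ((r ^ Fintype.card ι * P.eval r⁻¹ / P.eval 0 : ℚ) : ℝ) := by
  have hev : ∀ q : ℚ, ((P.eval q : ℚ) : ℝ) = ∏ j, ((q : ℝ) - τ j) := by
    intro q
    have h1 : (P.map (algebraMap ℚ ℝ)).eval (q : ℝ) = ((P.eval q : ℚ) : ℝ) := by
      have := Polynomial.eval_map_algebraMap P (q : ℝ)
      rw [this]
      have h2 := Polynomial.aeval_algebraMap_apply ℝ q P
      simpa using h2
    rw [← h1, hP, eval_prod]
    simp
  have h0 : ((P.eval 0 : ℚ) : ℝ) = ∏ j, (- τ j) := by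
    rw [hev 0]; simp
  have h0ne : (∏ j, (- τ j)) ≠ 0 := Finset.prod_ne_zero_iff.mpr (fun j _ => neg_ne_zero.mpr (hτ j))
  push_cast
  rw [hev r⁻¹, h0, eq_div_iff h0ne, ← Finset.prod_mul_distrib, ← Finset.card_univ,
    ← Finset.prod_const, ← Finset.prod_mul_distrib]
  refine Finset.prod_congr rfl fun j _ => ?_
  have hr' : (r : ℝ) ≠ 0 := by exact_mod_cast hr
  have := hτ j
  push_cast
  field_simp
  ring

end Vale.Agent.P058
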