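import Vale.Agent.P058.Lagr
import Vale.Agent.P058.Approx
import Vale.Agent.P058.RootsEnum

/-!
# A nearly diagonal rational matrix with eigenvalue `t⁻¹` (task G)

From `roots_enum` get `Z`, `τ`, `z0`.  Every `τ z` is a root of `minpoly ℚ t`, so `|τ z| < 1`, and
`τ z ≠ 0` (otherwise `0` is a root of the irreducible `minpoly ℚ t`, which then is `X`, so `t = 0`;
e.g. `minpoly.eq_of_irreducible_of_monic` or: `minpoly ℚ (0 : ℝ) = X` divides it).  Put `ξ z = (τ z)⁻¹`: injective,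
`1 < |ξ z|`.  Take `r`, `ε` from `approx_nodes`.  `r z ≠ 0` since `1 ≤ |r z|`.
`v z := -(r z ^ card * P.eval (r z)⁻¹ / P.eval 0) / ∏ j ∈ univ.erase z, (r z - r j)` (rational); its
cast is the real quotient of `approx_nodes` by `prod_inv_rat`.  `x = t⁻¹ = ξ z0`,
`m z := v z / (x - r z)`.  `lagrange_sum` gives `∑ m = 1` (so `m ≠ 0`), and
`x * m z = r z * m z + v z` because `(x - r z) * m z = v z`.
-/

namespace Vale.Agent.P058

open Finset Polynomial

theorem eigen_system (t : ℝ) (ht0 : t ≠ 0) (halg : IsAlgebraic ℚ t)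
    (hsplit : ((minpoly ℚ t).map (algebraMap ℚ ℝ)).Splits)
    (hroots : ∀ y : ℝ, aeval y (minpoly ℚ t) = 0 → |y| < 1) :
    ∃ (Z : Type) (_ : Fintype Z) (_ : AddCommGroup Z) (r v : Z → ℚ) (ε : ℚ) (m : Z → ℝ),
      0 < ε ∧ (∀ z, |v z| ≤ ε) ∧ (∀ z, 1 + ((Fintype.card Z : ℚ) + 1) * ε ≤ |r z|) ∧
      (∃ z, m z ≠ 0) ∧ ∀ z, t⁻¹ * m z = (r z : ℝ) * m z + (v z : ℝ) * ∑ z', m z' := by
  classical
  obtain ⟨Z, hF, hG, τ, z0, hτinj, hτ0, hprod⟩ := roots_enum t halg hsplit
  have hint : IsIntegral ℚ t := halg.isIntegral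
  -- every `τ z` is a root
  have hroot : ∀ z, aeval (τ z) (minpoly ℚ t) = 0 := by
    intro z
    rw [← Polynomial.eval_map_algebraMap, hprod, eval_prod]
    exact Finset.prod_eq_zero (Finset.mem_univ z) (by simp)
  have hlt : ∀ z, |τ z| < 1 := fun z => hroots _ (hroot z)
  have hne : ∀ z, τ z ≠ 0 := by
    intro z hz
    have h0 : aeval (0 : ℝ) (minpoly ℚ t) = 0 := by
      have h := hroot z
      rwa [hz] at h
    have h1 : minpoly ℚ t = minpoly ℚ (0 : ℝ) :=
      minpoly.eq_of_irreducible_of_monic (minpoly.irreducible hint) h0 (minpoly.monic hint)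
    rw [minpoly.zero] at h1
    have h2 := minpoly.aeval ℚ t
    rw [h1] at h2
    simp at h2
    exact ht0 h2
  set ξ : Z → ℝ := fun z => (τ z)⁻¹ with hξ
  have hξinj : Function.Injective ξ := by
    intro a b hab
    exact hτinj (inv_injective hab)
  have hξ1 : ∀ z, 1 < |ξ z| := by
    intro z
    rw [hξ]
    simp only [abs_inv]
    exact (one_lt_inv₀ (abs_pos.2 (hne z))).2 (hlt z)
  obtain ⟨r, ε, hε, hrinj, hξr, hbound, hrbig⟩ := approx_nodes ξ hξinj hξ1
  have hr0 : ∀ z, r z ≠ 0 := by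
    intro z hz
    have h1 := hrbig z
    rw [hz, abs_zero] at h1
    have h2 : 0 ≤ ((Fintype.card Z : ℚ) + 1) * ε := by positivity
    linarith
  set P : ℚ[X] := minpoly ℚ t with hP
  set v : Z → ℚ := fun z =>
    -(r z ^ Fintype.card Z * P.eval (r z)⁻¹ / P.eval 0) / ∏ j ∈ univ.erase z, (r z - r j) with hv
  have hvcast : ∀ z, ((v z : ℚ) : ℝ) =
      -(∏ j, ((r z : ℝ) - ξ j)) / ∏ j ∈ univ.erase z, ((r z : ℝ) - (r j : ℝ)) := by
    intro z
    have h1 := prod_inv_rat P τ hprod hne (r z) (hr0 z)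
    rw [hξ]
    simp only
    rw [h1, hv]
    push_cast
    rfl
  set x : ℝ := t⁻¹ with hx
  have hxξ : x = ξ z0 := by rw [hx, hξ]; simp only; rw [hτ0]
  have hxr : ∀ z, x ≠ (r z : ℝ) := by
    intro z
    rw [hxξ]
    exact hξr z z0
  have hx0 : ∏ j, (x - ξ j) = 0 :=
    Finset.prod_eq_zero (Finset.mem_univ z0) (by rw [hxξ]; ring)
  have hrinj' : Function.Injective (fun z => (r z : ℝ)) := by
    intro a b hab
    have hab' : (r a : ℝ) = (r b : ℝ) := hab
    exact hrinj (by exact_mod_cast hab')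
  have hsum := lagrange_sum ξ (fun z => (r z : ℝ)) hrinj' x hx0 hxr
  set m : Z → ℝ := fun z => (v z : ℝ) / (x - (r z : ℝ)) with hm
  have hsum' : ∑ z, m z = 1 := by
    rw [← hsum]
    refine Finset.sum_congr rfl (fun z _ => ?_)
    rw [hm]
    simp only
    rw [hvcast z]
  refine ⟨Z, hF, hG, r, v, ε, m, hε, ?_, hrbig, ?_, ?_⟩
  · intro z
    have h1 := hbound z
    rw [← hvcast z] at h1
    exact_mod_cast h1
  · by_contra hcon
    push Not at hcon
    have : ∑ z, m z = 0 := Finset.sum_eq_zero (fun z _ => hcon z)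
    rw [hsum'] at this
    exact one_ne_zero this
  · intro z
    rw [hsum', mul_one]
    have h1 : x - (r z : ℝ) ≠ 0 := sub_ne_zero.2 (hxr z)
    rw [hm]
    simp only
    field_simp
    ring

end Vale.Agent.P058
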