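import Vale.Agent.P058.KiteObstruction

namespace Vale.Agent.P058

open Polynomial

lemma irreducible_X_sq_sub_two : Irreducible (X ^ 2 - C 2 : ℚ[X]) := by
  refine X_pow_sub_C_irreducible_of_prime Nat.prime_two ?_
  intro b hb
  have h1 : ((b : ℝ)) ^ 2 = 2 := by exact_mod_cast hb
  have h2 : Real.sqrt 2 = |(b : ℝ)| := by
    rw [← h1, Real.sqrt_sq_eq_abs]
  have h3 : Irrational (Real.sqrt 2) := irrational_sqrt_two
  apply h3
  rw [h2]
  exact ⟨|b|, by push_cast; rfl⟩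

theorem explicit_kite_not_subtransitive (s : ℝ) (hs : s ≠ 0) :
    ¬ IsSubtransitive (kite (2 * Real.sqrt 2 - 3) s) := by
  have : Fact (Irreducible (X ^ 2 - C 2 : ℚ[X])) := ⟨irreducible_X_sq_sub_two⟩
  have hsq : Real.sqrt 2 ^ 2 = 2 := Real.sq_sqrt (by norm_num)
  let i : AdjoinRoot (X ^ 2 - C 2 : ℚ[X]) →+* ℝ :=
    AdjoinRoot.lift (algebraMap ℚ ℝ) (Real.sqrt 2) (by simp [hsq])
  let σ : AdjoinRoot (X ^ 2 - C 2 : ℚ[X]) →+* ℝ :=
    AdjoinRoot.lift (algebraMap ℚ ℝ) (-Real.sqrt 2) (by simp [hsq])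
  refine kite_not_subtransitive_of_embeddings _ s hs i σ (2 * AdjoinRoot.root _ - 3) ?_ ?_
  · have hroot : i (AdjoinRoot.root _) = Real.sqrt 2 := by simp [i]
    rw [map_sub, map_mul, map_ofNat i 2, map_ofNat i 3, hroot]
  · have h1 : σ (2 * AdjoinRoot.root _ - 3) = -(2 * Real.sqrt 2 + 3) := by
      have hroot : σ (AdjoinRoot.root _) = -Real.sqrt 2 := by simp [σ]
      rw [map_sub, map_mul, map_ofNat σ 2, map_ofNat σ 3, hroot]; ring
    rw [h1, abs_neg, lt_abs]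
    left
    have := Real.sqrt_nonneg 2
    linarith

end Vale.Agent.P058
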