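import Vale.Agent.P058.Merge

/-!
# Merging the orbits of a commuting family (task M3)

`ach_family`: Finset induction over the index set (`Fintype.ofFinite`), with the relation
`Rs s = EqvGen (fun x y => R₀ x y ∨ ∃ i ∈ s, y = c i x)`.  `Rs ∅ ≤ R₀` (induction on `EqvGen`), so
`Ach.mono` gives the base.  Insert step: `Rs s` is an equivalence (`Relation.EqvGen.is_equivalence`)
preserved by `c j` (`eqvGen_pres`, `hc`, `hcomm`); `ach_merge` gives
`Ach K (EqvGen (fun x y => Rs s x y ∨ y = c j x))` and `Rs (insert j s)` is contained in it.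
-/

namespace Vale.Agent.P058

variable {X : Type}

lemma eqvGen_pres {r : X → X → Prop} (f : X → X)
    (h : ∀ x y, r x y → Relation.EqvGen r (f x) (f y)) :
    ∀ x y, Relation.EqvGen r x y → Relation.EqvGen r (f x) (f y) := by
  intro x y hxy
  induction hxy with
  | rel x y hr => exact h x y hr
  | refl x => exact Relation.EqvGen.refl _
  | symm x y _ ih => exact Relation.EqvGen.symm _ _ ih
  | trans x y z _ _ ih1 ih2 => exact Relation.EqvGen.trans _ _ _ ih1 ih2

lemma eqvGen_le {r : X → X → Prop} {R : X → X → Prop} (hR : Equivalence R)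
    (h : ∀ x y, r x y → R x y) : ∀ x y, Relation.EqvGen r x y → R x y := by
  intro x y hxy
  induction hxy with
  | rel x y hr => exact h x y hr
  | refl x => exact hR.refl x
  | symm x y _ ih => exact hR.symm ih
  | trans x y z _ _ ih1 ih2 => exact hR.trans ih1 ih2

theorem ach_family_aux [Finite X] (K : X → X → ℝ) (hK0 : ∀ x, K x x = 0) {ι : Type}
    (c : ι → Equiv.Perm X) (hKc : ∀ i x y, K (c i x) (c i y) = K x y)
    (hcomm : ∀ i j x, c i (c j x) = c j (c i x))
    (R₀ : X → X → Prop) (hR₀ : Equivalence R₀) (hc : ∀ i x y, R₀ x y → R₀ (c i x) (c i y))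
    (hA : Ach K R₀) (s : Finset ι) :
    Ach K (Relation.EqvGen (fun x y => R₀ x y ∨ ∃ i ∈ s, y = c i x)) := by
  classical
  induction s using Finset.induction_on with
  | empty =>
    refine Ach.mono (eqvGen_le hR₀ ?_) hA
    rintro x y (h | ⟨i, hi, _⟩)
    · exact h
    · simp at hi
  | insert j s _ ih =>
    have hpres : ∀ x y, Relation.EqvGen (fun x y => R₀ x y ∨ ∃ i ∈ s, y = c i x) x y →
        Relation.EqvGen (fun x y => R₀ x y ∨ ∃ i ∈ s, y = c i x) (c j x) (c j y) := by
      refine eqvGen_pres (c j) ?_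
      rintro x y (h | ⟨i, hi, rfl⟩)
      · exact Relation.EqvGen.rel _ _ (Or.inl (hc j x y h))
      · exact Relation.EqvGen.rel _ _ (Or.inr ⟨i, hi, hcomm j i x⟩)
    have := ach_merge K (c j) hK0 (hKc j) _ (Relation.EqvGen.is_equivalence _) hpres ih
    refine Ach.mono (eqvGen_le (Relation.EqvGen.is_equivalence _) ?_) this
    rintro x y (h | ⟨i, hi, rfl⟩)
    · exact Relation.EqvGen.rel _ _ (Or.inl (Relation.EqvGen.rel _ _ (Or.inl h)))
    · rcases Finset.mem_insert.1 hi with rfl | hi
      · exact Relation.EqvGen.rel _ _ (Or.inr rfl)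
      · exact Relation.EqvGen.rel _ _ (Or.inl (Relation.EqvGen.rel _ _ (Or.inr ⟨i, hi, rfl⟩)))

theorem ach_family [Finite X] (K : X → X → ℝ) (hK0 : ∀ x, K x x = 0) {ι : Type} [Finite ι]
    (c : ι → Equiv.Perm X) (hKc : ∀ i x y, K (c i x) (c i y) = K x y)
    (hcomm : ∀ i j x, c i (c j x) = c j (c i x))
    (R₀ : X → X → Prop) (hR₀ : Equivalence R₀) (hc : ∀ i x y, R₀ x y → R₀ (c i x) (c i y))
    (hA : Ach K R₀) : Ach K (Relation.EqvGen (fun x y => R₀ x y ∨ ∃ i, y = c i x)) := by
  classical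
  have := Fintype.ofFinite ι
  have h := ach_family_aux K hK0 c hKc hcomm R₀ hR₀ hc hA Finset.univ
  simpa using h

end Vale.Agent.P058
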