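import Mathlib

/-!
# Clearing denominators (task I)

Let `d = card Z`, and `Q > 0` a natural number such that `Q * r z`, `Q * v z`, `Q * ε` are integers
(e.g. `Q = ε.den * ∏ z, (r z).den * (v z).den`).  `σ z` = sign of `r z`.  `u = 2 Q`.
With the integers `e = Q ε`, `V z = σ z * Q * v z` (`|V z| ≤ e`), `Rr z = Q |r z|`:
* `Nn δ = 2 e`, `p δ z = e - V z` for `δ ≠ 0`;
* `Nn 0 = 2 ^ k - 2 Q - (d - 1) * 2 e`, `p 0 z = 2 ^ k - Q - (d - 1) e - Rr z - V z`,
where `k` is so large that `2 ^ k ≥ 2 Q + 2 d e + Rr z` for all `z` (`Nat.lt_two_pow_self`).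
`p 0 z ≤ Nn 0` is `Q + (d - 1) e ≤ Rr z + V z`, which follows from `hr` and `hv`.
Then `2 p δ z - Nn δ = - u σ v + [δ = 0] (2 ^ k - u |r z|)`, and the equation follows from
`u σ x m z = u |r z| m z + u σ v ∑ z', m z'` and `∑ z', m z' = ∑ δ, m (z + δ)`
(`Equiv.sum_comp (Equiv.addLeft z)`); split the sum with `Finset.sum_erase` or `Finset.sum_ite_eq`.
-/

namespace Vale.Agent.P058

open Finset

lemma exists_int_of_den_dvd (q : ℚ) (n : ℕ) (h : q.den ∣ n) : ∃ a : ℤ, (a : ℚ) = (n : ℚ) * q := by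
  obtain ⟨c, rfl⟩ := h
  refine ⟨(c : ℤ) * q.num, ?_⟩
  have h1 : q * (q.den : ℚ) = (q.num : ℚ) := Rat.mul_den_eq_num q
  push_cast
  rw [← h1]
  ring

theorem counts_of_eigen (Z : Type) [Fintype Z] [AddCommGroup Z] (x : ℝ) (r v : Z → ℚ) (ε : ℚ)
    (m : Z → ℝ) (hε : 0 < ε) (hv : ∀ z, |v z| ≤ ε)
    (hr : ∀ z, 1 + ((Fintype.card Z : ℚ) + 1) * ε ≤ |r z|)
    (hm : ∀ z, x * m z = (r z : ℝ) * m z + (v z : ℝ) * ∑ z', m z') :
    ∃ (k u : ℕ) (σ : Z → ℤˣ) (Nn : Z → ℕ) (p : Z → Z → ℕ), 0 < u ∧ (∀ δ z, p δ z ≤ Nn δ) ∧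
      u + ∑ δ, Nn δ = 2 ^ k ∧
      ∀ z, (2 : ℝ) ^ k * m z = (u : ℝ) * ((σ z : ℤ) : ℝ) * x * m z
        + ∑ δ, (2 * (p δ z : ℝ) - (Nn δ : ℝ)) * m (z + δ) := by
  classical
  -- the common denominator
  set Q : ℕ := ε.den * ∏ z, ((r z).den * (v z).den) with hQ
  have hQpos : 0 < Q := by
    rw [hQ]
    refine Nat.mul_pos ε.den_pos (Finset.prod_pos fun z _ => Nat.mul_pos (r z).den_pos (v z).den_pos)
  have hdz : ∀ z, ((r z).den * (v z).den) ∣ Q := fun z =>
    Dvd.dvd.mul_left (Finset.dvd_prod_of_mem (fun z => (r z).den * (v z).den) (Finset.mem_univ z)) _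
  have hR : ∀ z, ∃ a : ℤ, (a : ℚ) = (Q : ℚ) * r z := fun z =>
    exists_int_of_den_dvd _ _ ((Dvd.intro _ rfl).trans (hdz z))
  have hW : ∀ z, ∃ a : ℤ, (a : ℚ) = (Q : ℚ) * v z := fun z =>
    exists_int_of_den_dvd _ _ ((Dvd.intro_left _ rfl).trans (hdz z))
  obtain ⟨e, he⟩ : ∃ a : ℤ, (a : ℚ) = (Q : ℚ) * ε := exists_int_of_den_dvd _ _ (Dvd.intro _ rfl)
  choose R hR using hR
  choose W hW using hW
  have hQq : (0 : ℚ) < (Q : ℚ) := by exact_mod_cast hQpos
  -- signs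
  set σ : Z → ℤˣ := fun z => if 0 ≤ r z then 1 else -1 with hσ
  have hσr : ∀ z, (((σ z : ℤ)) : ℚ) * r z = |r z| := by
    intro z
    by_cases h : 0 ≤ r z
    · simp [hσ, h, abs_of_nonneg h]
    · have h' : r z < 0 := not_le.1 h
      simp [hσ, h, abs_of_neg h']
  have hσabs : ∀ z, |(((σ z : ℤ)) : ℚ)| = 1 := by
    intro z
    by_cases h : 0 ≤ r z <;> simp [hσ, h]
  set d : ℤ := (Fintype.card Z : ℤ) with hd
  have hdpos : 1 ≤ d := by
    have : 0 < Fintype.card Z := Fintype.card_pos_iff.2 ⟨0⟩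
    rw [hd]; exact_mod_cast this
  set Rr : Z → ℤ := fun z => (σ z : ℤ) * R z with hRr
  set V : Z → ℤ := fun z => (σ z : ℤ) * W z with hV
  have hRrq : ∀ z, ((Rr z : ℤ) : ℚ) = (Q : ℚ) * |r z| := by
    intro z
    simp only [hRr]
    push_cast
    rw [hR z, ← hσr z]
    ring
  have hVq : ∀ z, ((V z : ℤ) : ℚ) = (((σ z : ℤ)) : ℚ) * ((Q : ℚ) * v z) := by
    intro z
    simp only [hV]
    push_cast
    rw [hW z]
  have hepos : 0 < e := by
    have : (0 : ℚ) < (e : ℚ) := by rw [he]; positivity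
    exact_mod_cast this
  have hVabs : ∀ z, |V z| ≤ e := by
    intro z
    have : |((V z : ℤ) : ℚ)| ≤ (e : ℚ) := by
      rw [hVq z, abs_mul, hσabs z, one_mul, abs_mul, abs_of_pos hQq, he]
      exact mul_le_mul_of_nonneg_left (hv z) hQq.le
    exact_mod_cast this
  have hRrlow : ∀ z, (Q : ℤ) + (d + 1) * e ≤ Rr z := by
    intro z
    have : ((Q : ℤ) : ℚ) + (((d : ℤ) : ℚ) + 1) * (e : ℚ) ≤ ((Rr z : ℤ) : ℚ) := by
      rw [hRrq z, he, hd]
      push_cast
      have := mul_le_mul_of_nonneg_left (hr z) hQq.le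
      nlinarith [this]
    exact_mod_cast this
  -- the exponent
  set M : ℤ := 2 * (Q : ℤ) + 2 * d * e + ∑ z, |Rr z| with hM
  have hMnn : 0 ≤ M := by
    have h1 : 0 ≤ ∑ z, |Rr z| := Finset.sum_nonneg fun z _ => abs_nonneg _
    have h2 : 0 ≤ 2 * d * e := by positivity
    have h3 : (0 : ℤ) ≤ 2 * (Q : ℤ) := by positivity
    rw [hM]; linarith
  set k : ℕ := M.toNat with hk
  have hkM : M ≤ (2 : ℤ) ^ k := by
    have h1 : k < 2 ^ k := Nat.lt_two_pow_self
    have h2 : (k : ℤ) = M := Int.toNat_of_nonneg hMnn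
    have h3 : (k : ℤ) < (2 : ℤ) ^ k := by exact_mod_cast h1
    linarith
  have hRrM : ∀ z, Rr z ≤ ∑ z', |Rr z'| := by
    intro z
    exact (le_abs_self _).trans
      (Finset.single_le_sum (f := fun z' => |Rr z'|) (fun z' _ => abs_nonneg _) (Finset.mem_univ z))
  -- integer versions of the counts
  set NI : Z → ℤ := fun δ => if δ = 0 then (2 : ℤ) ^ k - 2 * Q - (d - 1) * (2 * e) else 2 * e with hNI
  set pI : Z → Z → ℤ := fun δ z =>
    if δ = 0 then (2 : ℤ) ^ k - Q - (d - 1) * e - Rr z - V z else e - V z with hpI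
  have hVle : ∀ z, V z ≤ e := fun z => (le_abs_self _).trans (hVabs z)
  have hVge : ∀ z, -e ≤ V z := fun z => (abs_le.1 (hVabs z)).1
  have hNInn : ∀ δ, 0 ≤ NI δ := by
    intro δ
    simp only [hNI]
    split_ifs
    · have h1 : 0 ≤ ∑ z, |Rr z| := Finset.sum_nonneg fun z _ => abs_nonneg _
      nlinarith [hkM, hepos, hdpos]
    · linarith
  have hpInn : ∀ δ z, 0 ≤ pI δ z := by
    intro δ z
    simp only [hpI]
    split_ifs
    · have h1 := hRrM z
      have h2 := hVle z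
      have h3 : (0 : ℤ) ≤ (Q : ℤ) := by positivity
      nlinarith [hkM, hepos, hdpos]
    · linarith [hVle z]
  have hpIle : ∀ δ z, pI δ z ≤ NI δ := by
    intro δ z
    simp only [hpI, hNI]
    split_ifs
    · have h1 := hRrlow z
      have h2 := hVge z
      nlinarith [hepos, hdpos]
    · linarith [hVge z]
  have hsumNI : ∑ δ, NI δ = (2 : ℤ) ^ k - 2 * Q := by
    have h1 : ∀ δ : Z, NI δ = 2 * e + (if δ = 0 then (2 : ℤ) ^ k - 2 * Q - (d - 1) * (2 * e) - 2 * e else 0) := by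
      intro δ
      simp only [hNI]
      split_ifs <;> ring
    rw [Finset.sum_congr rfl fun δ _ => h1 δ, Finset.sum_add_distrib, Finset.sum_ite_eq']
    simp only [Finset.sum_const, Finset.card_univ, Finset.mem_univ, if_true, nsmul_eq_mul]
    rw [← hd]
    ring
  refine ⟨k, 2 * Q, σ, fun δ => (NI δ).toNat, fun δ z => (pI δ z).toNat, by positivity, ?_, ?_, ?_⟩
  · intro δ z
    exact Int.toNat_le_toNat (hpIle δ z)
  · have h1 : ((2 * Q + ∑ δ, (NI δ).toNat : ℕ) : ℤ) = ((2 ^ k : ℕ) : ℤ) := by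
      push_cast
      rw [Finset.sum_congr rfl fun δ _ => Int.toNat_of_nonneg (hNInn δ), hsumNI]
      ring
    exact_mod_cast h1
  · intro z
    have hc1 : ∀ δ, (((NI δ).toNat : ℕ) : ℝ) = ((NI δ : ℤ) : ℝ) := by
      intro δ
      have := Int.toNat_of_nonneg (hNInn δ)
      exact_mod_cast congrArg (fun a : ℤ => (a : ℝ)) this
    have hc2 : ∀ δ, (((pI δ z).toNat : ℕ) : ℝ) = ((pI δ z : ℤ) : ℝ) := by
      intro δ
      have := Int.toNat_of_nonneg (hpInn δ z)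
      exact_mod_cast congrArg (fun a : ℤ => (a : ℝ)) this
    have hterm : ∀ δ : Z, (2 * (((pI δ z).toNat : ℕ) : ℝ) - (((NI δ).toNat : ℕ) : ℝ)) * m (z + δ)
        = (-2 * (V z : ℝ)) * m (z + δ)
          + (if δ = 0 then ((2 : ℝ) ^ k - 2 * (Rr z : ℝ)) * m (z + δ) else 0) := by
      intro δ
      rw [hc1, hc2]
      simp only [hpI, hNI]
      split_ifs
      · push_cast
        ring
      · push_cast
        ring
    rw [Finset.sum_congr rfl fun δ _ => hterm δ, Finset.sum_add_distrib, Finset.sum_ite_eq',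
      ← Finset.mul_sum]
    simp only [Finset.mem_univ, if_true, add_zero]
    have hs : ∑ δ, m (z + δ) = ∑ z', m z' := Equiv.sum_comp (Equiv.addLeft z) m
    rw [hs]
    have hVr : (V z : ℝ) = (((σ z : ℤ)) : ℝ) * ((Q : ℝ) * (v z : ℝ)) := by
      have := congrArg (fun a : ℚ => (a : ℝ)) (hVq z)
      push_cast at this
      exact_mod_cast this
    have hRrr : (Rr z : ℝ) = (Q : ℝ) * ((((σ z : ℤ)) : ℝ) * (r z : ℝ)) := by
      have h1 := hRrq z
      rw [← hσr z] at h1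
      have := congrArg (fun a : ℚ => (a : ℝ)) h1
      push_cast at this
      exact_mod_cast this
    rw [hVr, hRrr]
    have h0 := hm z
    push_cast
    have : (2 * (Q : ℝ)) * (((σ z : ℤ)) : ℝ) * x * m z
        = (2 * (Q : ℝ)) * (((σ z : ℤ)) : ℝ) * (x * m z) := by ring
    rw [this, h0]
    ring

end Vale.Agent.P058
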