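import Vale.Agent.P058.ObstructionSub

namespace Vale.Agent.P058

open scoped BigOperators
open Polynomial

lemma kite_spherical (t s : ℝ) (h : t ^ 2 + s ^ 2 = 1) : IsSpherical (kite t s) := by
  refine ⟨0, 1, ?_⟩
  intro a ha
  simp only [kite, Set.mem_insert_iff, Set.mem_singleton_iff] at ha
  rcases ha with rfl | rfl | rfl | rfl <;>
    simp [EuclideanSpace.norm_eq, Fin.sum_univ_two, h]

theorem kite_not_subtransitive_of_embeddings (t s : ℝ) (hs : s ≠ 0)
    {K : Type*} [Field K] (i σ : K →+* ℝ) (τ : K) (hτ : i τ = t) (hσ : 1 < |σ τ|) :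
    ¬ IsSubtransitive (kite t s) := by
  intro hA
  let y : Fin 4 → E 2 := ![!₂[1, 0], !₂[t, s], !₂[-1, 0], !₂[t, -s]]
  let μ : Fin 4 → K := ![1 + τ, -1, 1 - τ, -1]
  have hy : ∀ j, y j ∈ kite t s := by
    intro j
    fin_cases j <;> simp [y, kite]
  have hμ : ∑ j, μ j = 0 := by
    simp [μ, Fin.sum_univ_four]
  have hrel : ∑ j, i (μ j) • y j = 0 := by
    simp only [Fin.sum_univ_four, μ, y]
    ext k
    fin_cases k <;> simp [hτ]
  have hbd : ∀ j0 : Fin 4, (∀ j, j ≠ j0 → σ (μ j) ≤ 0) → False := by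
    intro j0 hneg
    have h := obstruction_subtransitive hA i σ y hy μ hμ hrel j0 hneg
    have h1 := h 1 (by simp [μ])
    have h3 := h 3 (by simp [μ])
    have h13 : y 1 = y 3 := h1.trans h3.symm
    have h4 := congrArg (fun v : E 2 => v 1) h13
    simp [y] at h4
    apply hs
    linarith
  rcases lt_abs.1 hσ with h | h
  · apply hbd 0
    intro j hj
    fin_cases j <;> simp [μ] at hj ⊢ <;> linarith
  · apply hbd 2
    intro j hj
    fin_cases j <;> simp [μ] at hj ⊢ <;> linarith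

theorem kite_not_subtransitive_algebraic (t s : ℝ) (hs : s ≠ 0) (ht : IsAlgebraic ℚ t)
    (t' : ℝ) (hroot : aeval t' (minpoly ℚ t) = 0) (ht' : 1 < |t'|) :
    ¬ IsSubtransitive (kite t s) := by
  haveI : Fact (Irreducible (minpoly ℚ t)) := ⟨minpoly.irreducible ht.isIntegral⟩
  let i : AdjoinRoot (minpoly ℚ t) →+* ℝ :=
    AdjoinRoot.lift (algebraMap ℚ ℝ) t (by rw [← aeval_def]; exact minpoly.aeval ℚ t)
  let σ : AdjoinRoot (minpoly ℚ t) →+* ℝ :=
    AdjoinRoot.lift (algebraMap ℚ ℝ) t' (by rw [← aeval_def]; exact hroot)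
  refine kite_not_subtransitive_of_embeddings t s hs i σ (AdjoinRoot.root _) ?_ ?_
  · simp [i]
  · simpa [σ] using ht'

theorem kite_not_subtransitive_transcendental (t s : ℝ) (hs : s ≠ 0) (ht : Transcendental ℚ t)
    (hle : |t| ≤ 1) : ¬ IsSubtransitive (kite t s) := by
  have ht2 : Transcendental ℚ (t + 3) := by
    intro h
    apply ht
    have h3 : IsAlgebraic ℚ (3 : ℝ) := by
      simpa using (isAlgebraic_algebraMap (R := ℚ) (A := ℝ) (3 : ℚ))
    simpa using h.sub h3
  let i : FractionRing ℚ[X] →+* ℝ :=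
    IsFractionRing.lift (g := (aeval t : ℚ[X] →ₐ[ℚ] ℝ).toRingHom)
      (transcendental_iff_injective.1 ht)
  let σ : FractionRing ℚ[X] →+* ℝ :=
    IsFractionRing.lift (g := (aeval (t + 3) : ℚ[X] →ₐ[ℚ] ℝ).toRingHom)
      (transcendental_iff_injective.1 ht2)
  refine kite_not_subtransitive_of_embeddings t s hs i σ (algebraMap ℚ[X] _ X) ?_ ?_
  · simp [i]
  · have : σ (algebraMap ℚ[X] _ X) = t + 3 := by simp [σ]
    rw [this]
    have := abs_le.1 hle
    rw [lt_abs]; left; linarith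

end Vale.Agent.P058
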