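import Vale.Agent.P058.Config

/-!
# The square (task F3)

`square_ramsey`: apply `ramsey_of_config` with `Lam = Bool`, `S = Unit` (or `ZMod 1`), `ρ = 1`,
`t = 0`, `v = a = (1, 1)`, `c = (-1, -1)`, `b = (1, -1)`, `d = (-1, 1)`; all are sign changes of `a`.
-/

namespace Vale.Agent.P058

open Finset

theorem square_ramsey (s : ℝ) (hts : (0 : ℝ) ^ 2 + s ^ 2 = 1) : IsRamsey (kite 0 s) := by
  have hs : s ≠ 0 := by
    rintro rfl
    norm_num at hts
  -- the base vector
  let a : Bool × Unit → ℝ := fun _ => 1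
  have key : ∀ ε : Bool × Unit → ℤˣ,
      Reach (1 : Equiv.Perm Bool) a (fun ω => ((ε ω : ℤ) : ℝ) * a ω) :=
    fun ε => Reach.sign ε Reach.base
  refine ramsey_of_config (Lam := Bool) (S := Unit) (1 : Equiv.Perm Bool) 0 s hts hs a a
    (fun ω => (((if ω.1 then 1 else -1 : ℤˣ) : ℤ) : ℝ) * a ω)
    (fun ω => (((-1 : ℤˣ) : ℤ) : ℝ) * a ω)
    (fun ω => (((if ω.1 then -1 else 1 : ℤˣ) : ℤ) : ℝ) * a ω)
    Reach.base (key _) (key _) (key _) ?_ ?_ ?_ ?_
  · rintro ⟨b, u⟩
    cases b <;> simp [a]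
  · simp [Fintype.sum_prod_type, a]
  · simp [Fintype.sum_prod_type, a]
  · intro h
    have := congrFun h (true, ())
    simp only [a] at this
    norm_num at this

end Vale.Agent.P058
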