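import Vale.Agent.P058.Butterfly
import Vale.Agent.P058.Square

namespace Vale.Agent.P058

/-- Every right kite inscribed in the unit circle with rational `cos` is Ramsey. -/
theorem kite_ramsey_rat (q : ℚ) (s : ℝ) (hqs : (q : ℝ) ^ 2 + s ^ 2 = 1) (hs : s ≠ 0) :
    IsRamsey (kite (q : ℝ) s) := by
  have hqR : |(q : ℝ)| < 1 := by
    have h1 : (q : ℝ) ^ 2 < 1 := by
      have : 0 < s ^ 2 := by positivity
      linarith
    exact (sq_lt_one_iff_abs_lt_one _).1 h1
  set n : ℕ := q.den with hn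
  set z : ℕ := q.num.natAbs with hz
  have hnpos : 0 < n := q.den_pos
  have habs : |(q : ℝ)| = (z : ℝ) / n := by
    have h1 : (q : ℝ) = (q.num : ℝ) / (q.den : ℝ) := by
      exact_mod_cast (Rat.num_div_den q).symm
    rw [h1, abs_div, hz, hn, Nat.abs_cast, Nat.cast_natAbs, Int.cast_abs]
  have hnR : (0 : ℝ) < n := by exact_mod_cast hnpos
  have hzn : z < n := by
    rw [habs, div_lt_one hnR] at hqR
    exact_mod_cast hqR
  rcases Nat.eq_zero_or_pos z with hz0 | hz0
  · have hq0 : (q : ℝ) = 0 := by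
      have : |(q : ℝ)| = 0 := by rw [habs, hz0]; simp
      exact abs_eq_zero.1 this
    rw [hq0] at hqs ⊢
    exact square_ramsey s hqs
  · obtain ⟨m, hm⟩ : ∃ m : ℕ, m + z = n := ⟨n - z, by omega⟩
    have hmR : (m : ℝ) + z = n := by exact_mod_cast hm
    have key : (((2 * z : ℕ) : ℝ)) / (((2 * z : ℕ) : ℝ) + 2 * (m : ℝ)) = |(q : ℝ)| := by
      rw [habs]
      push_cast
      have h2 : (2 * (z : ℝ) + 2 * m) = 2 * n := by linarith
      rw [h2]
      field_simp
    have hmain := kite_ramsey_nat (2 * z) m (by omega) (by omega) s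
      (by rw [key, sq_abs]; exact hqs) hs
    rw [key] at hmain
    rcases abs_choice (q : ℝ) with h1 | h1
    · rw [h1] at hmain; exact hmain.1
    · rw [h1, neg_neg] at hmain; exact hmain.2

end Vale.Agent.P058
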