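import Vale.Agent.P058.BlockSet

namespace Vale.Agent.P058

open scoped BigOperators RealInnerProductSpace

section construction

abbrev Idx (L : ℕ) := Fin L × Bool

noncomputable def sgn (b : Bool) : ℝ := if b then 1 else -1

lemma sgn_not (b : Bool) : sgn (!b) = - sgn b := by
  cases b <;> simp [sgn]

noncomputable def val (h L : ℕ) (p : Idx L) : ℝ := sgn p.2 * ((h : ℝ) + 2 * ((p.1 : ℕ) : ℝ) + 1)

def tC (L : ℕ) (p : Idx L) : Idx L := (⟨L - 1 - p.1, by have := p.1.2; omega⟩, !p.2)

def tB (h L : ℕ) (p : Idx L) : Idx L :=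
  (⟨if (p.1 : ℕ) + h < L then L - h - 1 - p.1 else 2 * L - h - 1 - p.1, by
    have := p.1.2; split_ifs <;> omega⟩, !p.2)

def tD (h L : ℕ) (p : Idx L) : Idx L :=
  if hp : (p.1 : ℕ) + h < L then (⟨L - h - 1 - p.1, by omega⟩, !p.2) else p

lemma tC_invol (L : ℕ) : Function.Involutive (tC L) := by
  rintro ⟨⟨i, hi⟩, b⟩
  simp only [tC, Bool.not_not, Prod.mk.injEq, Fin.mk.injEq, and_true]
  omega

lemma tB_invol (h L : ℕ) (hL : h ≤ L) : Function.Involutive (tB h L) := by
  rintro ⟨⟨i, hi⟩, b⟩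
  simp only [tB, Bool.not_not, Prod.mk.injEq, Fin.mk.injEq, and_true]
  split_ifs <;> omega

lemma tD_invol (h L : ℕ) : Function.Involutive (tD h L) := by
  rintro ⟨⟨i, hi⟩, b⟩
  by_cases hp : i + h < L
  · have hp2 : L - h - 1 - i + h < L := by omega
    simp only [tD, hp, hp2, dite_true, Bool.not_not, Prod.mk.injEq, Fin.mk.injEq, and_true]
    omega
  · simp [tD, hp]

lemma val_rel (h L : ℕ) (hL : h ≤ L) (p : Idx L) :
    ((h : ℝ) + L) * (val h L (tB h L p) + val h L (tD h L p))
      = 2 * h * val h L p + 2 * L * val h L (tC L p) := by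
  obtain ⟨⟨i, hi⟩, b⟩ := p
  obtain ⟨k, hk⟩ : ∃ k : ℕ, k + i + 1 = L := ⟨L - 1 - i, by omega⟩
  have hk' : L - 1 - i = k := by omega
  have hkR : (k : ℝ) + i + 1 = L := by exact_mod_cast hk
  by_cases hp : i + h < L
  · obtain ⟨m, hm⟩ : ∃ m : ℕ, m + i + h + 1 = L := ⟨L - h - 1 - i, by omega⟩
    have hm' : L - h - 1 - i = m := by omega
    have hmR : (m : ℝ) + i + h + 1 = L := by exact_mod_cast hm
    simp only [val, tB, tD, tC, hp, if_true, dite_true, hm', hk', sgn_not]
    have e1 : (m : ℝ) = L - i - h - 1 := by linarith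
    have e2 : (k : ℝ) = L - i - 1 := by linarith
    rw [e1, e2]; ring
  · obtain ⟨m, hm⟩ : ∃ m : ℕ, m + i + h + 1 = 2 * L := ⟨2 * L - h - 1 - i, by omega⟩
    have hm' : 2 * L - h - 1 - i = m := by omega
    have hmR : (m : ℝ) + i + h + 1 = 2 * L := by exact_mod_cast hm
    simp only [val, tB, tD, tC, hp, if_false, dite_false, hm', hk', sgn_not]
    have e1 : (m : ℝ) = 2 * L - i - h - 1 := by linarith
    have e2 : (k : ℝ) = L - i - 1 := by linarith
    rw [e1, e2]; ring

end construction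

theorem kite_subtransitive_nat (h L : ℕ) (h0 : 0 < h) (hL : h ≤ L) (s : ℝ)
    (hts : (((h : ℝ) - L) / (h + L)) ^ 2 + s ^ 2 = 1) (hs : s ≠ 0) :
    IsSubtransitive (kite (((h : ℝ) - L) / (h + L)) s) ∧
      IsSubtransitive (kite (((L : ℝ) - h) / (h + L)) s) := by
  set t : ℝ := ((h : ℝ) - L) / (h + L) with ht
  have hpos : (0 : ℝ) < (h : ℝ) + L := by positivity
  have ht1 : 1 + t = 2 * h / (h + L) := by rw [ht]; field_simp; ring
  have ht2 : 1 - t = 2 * L / (h + L) := by rw [ht]; field_simp; ring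
  have hneg : ((L : ℝ) - h) / (h + L) = -t := by rw [ht]; field_simp; ring
  let pB : Equiv.Perm (Idx L) := (tB_invol h L hL).toPerm
  let pC : Equiv.Perm (Idx L) := (tC_invol L).toPerm
  let pD : Equiv.Perm (Idx L) := (tD_invol h L).toPerm
  let a : EuclideanSpace ℝ (Idx L ⊕ Idx L) := WithLp.toLp 2 (Sum.elim (val h L) (val h L))
  let b := permL (Equiv.sumCongr pB pD) a
  let c := permL (Equiv.sumCongr pC pC) a
  let d := permL (Equiv.sumCongr pD pB) a
  let sw : Equiv.Perm (Idx L ⊕ Idx L) := Equiv.sumComm _ _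
  have ha : a ∈ blockSet a := ⟨1, by ext i; simp⟩
  have hb : b ∈ blockSet a := ⟨_, rfl⟩
  have hc : c ∈ blockSet a := ⟨_, rfl⟩
  have hd : d ∈ blockSet a := ⟨_, rfl⟩
  have hrel : b + d = (1 + t) • a + (1 - t) • c := by
    rw [ht1, ht2]
    ext i
    rcases i with p | p
    · have := val_rel h L hL p
      simp only [a, b, c, d, pB, pC, pD, PiLp.add_apply, PiLp.smul_apply, permL_apply,
        Equiv.sumCongr_apply, Sum.map_inl, Sum.elim_inl, smul_eq_mul,
        Function.Involutive.coe_toPerm]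
      field_simp
      linarith
    · have := val_rel h L hL p
      simp only [a, b, c, d, pB, pC, pD, PiLp.add_apply, PiLp.smul_apply, permL_apply,
        Equiv.sumCongr_apply, Sum.map_inr, Sum.elim_inr, smul_eq_mul,
        Function.Involutive.coe_toPerm]
      field_simp
      linarith
  have hswa : permL sw a = a := by
    ext i; rcases i with p | p <;> simp [a, sw]
  have hswc : permL sw c = c := by
    ext i; rcases i with p | p <;> simp [a, c, sw]
  have hswb : permL sw b = d := by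
    ext i; rcases i with p | p <;> simp [a, b, d, sw]
  have hab : ⟪a, b⟫ = ⟪a, d⟫ := by
    rw [← (permL sw).inner_map_map a b, hswa, hswb]
  have hcb : ⟪c, b⟫ = ⟪c, d⟫ := by
    rw [← (permL sw).inner_map_map c b, hswc, hswb]
  have hne : a ≠ c := by
    intro hac
    have hL0 : 0 < L := lt_of_lt_of_le h0 hL
    have h1 := congrArg (fun v : EuclideanSpace ℝ (Idx L ⊕ Idx L) => v (Sum.inl (⟨0, hL0⟩, true))) hac
    simp only [a, c, pC, permL_apply, Equiv.sumCongr_apply, Sum.map_inl, Sum.elim_inl,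
      Function.Involutive.coe_toPerm, val, tC, sgn] at h1
    simp only [if_true, Bool.not_true, Bool.false_eq_true, if_false] at h1
    have h2 : (0 : ℝ) ≤ ((L - 1 - 0 : ℕ) : ℝ) := Nat.cast_nonneg _
    have h3 : (0 : ℝ) < h := by exact_mod_cast h0
    simp only [Nat.cast_zero] at h1
    nlinarith
  refine ⟨subtransitive_of_config t s hts hs a a b c d ha hb hc hd hrel hab hcb hne, ?_⟩
  rw [hneg]
  refine subtransitive_of_config (-t) s (by rw [neg_sq]; exact hts) hs a c b a d hc hb ha hd ?_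
    hcb hab hne.symm
  rw [hrel]
  have e1 : (1 + -t) = 1 - t := by ring
  have e2 : (1 - -t) = 1 + t := by ring
  rw [e1, e2, add_comm]

/-- Every right kite inscribed in the unit circle with rational `cos` is subtransitive. -/
theorem kite_subtransitive_rat (q : ℚ) (hq : |q| < 1) (s : ℝ) (hqs : (q : ℝ) ^ 2 + s ^ 2 = 1) :
    IsSubtransitive (kite (q : ℝ) s) := by
  have hqR : |(q : ℝ)| < 1 := by exact_mod_cast hq
  have hs : s ≠ 0 := by
    rintro rfl
    have : (q : ℝ) ^ 2 = 1 := by simpa using hqs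
    have h2 : |(q : ℝ)| ^ 2 = 1 := by rw [sq_abs]; exact this
    nlinarith [abs_nonneg (q : ℝ)]
  -- write |q| = z / n
  set n : ℕ := q.den with hn
  set z : ℕ := q.num.natAbs with hz
  have hnpos : 0 < n := q.den_pos
  have habs : |(q : ℝ)| = (z : ℝ) / n := by
    have h1 : (q : ℝ) = (q.num : ℝ) / (q.den : ℝ) := by
      exact_mod_cast (Rat.num_div_den q).symm
    rw [h1, abs_div, hz, hn, Nat.abs_cast, Nat.cast_natAbs, Int.cast_abs]
  have hzn : z < n := by
    have hnR : (0 : ℝ) < n := by exact_mod_cast hnpos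
    rw [habs, div_lt_one hnR] at hqR
    exact_mod_cast hqR
  obtain ⟨h, hh⟩ : ∃ h : ℕ, h + z = n := ⟨n - z, by omega⟩
  have hhR : (h : ℝ) + z = n := by exact_mod_cast hh
  have hnR : (0 : ℝ) < n := by exact_mod_cast hnpos
  have key : (((n + z : ℕ) : ℝ) - h) / (h + ((n + z : ℕ) : ℝ)) = |(q : ℝ)| := by
    rw [habs]
    push_cast
    have : (h : ℝ) = n - z := by linarith
    rw [this]
    have hden : ((n : ℝ) - z + (n + z)) ≠ 0 := by
      have h2 : (n : ℝ) - z + (n + z) = 2 * n := by ring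
      rw [h2]; positivity
    rw [div_eq_div_iff hden hnR.ne']; ring
  have key2 : ((h : ℝ) - ((n + z : ℕ) : ℝ)) / (h + ((n + z : ℕ) : ℝ)) = -|(q : ℝ)| := by
    rw [← key, ← neg_div]; congr 1; ring
  have hmain := kite_subtransitive_nat h (n + z) (by omega) (by omega) s
    (by rw [key2, neg_sq, sq_abs]; exact hqs) hs
  rw [key, key2] at hmain
  rcases abs_choice (q : ℝ) with h1 | h1
  · rw [h1] at hmain; exact hmain.2
  · rw [h1, neg_neg] at hmain; exact hmain.1

end Vale.Agent.P058
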