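import Vale.Agent.P058.Design
import Vale.Agent.P058.Counts
import Vale.Agent.P058.Eigen
import Vale.Agent.P058.Integers
import Vale.Agent.P058.Square
import Vale.Agent.P058.RationalKite
import Vale.Agent.P058.KiteObstruction

namespace Vale.Agent.P058

open Polynomial

/-- Right kites whose cosine is a totally real algebraic number with all conjugates in `(-1, 1)` are
Ramsey and subtransitive. -/
theorem kite_totally_real (t s : ℝ) (hts : t ^ 2 + s ^ 2 = 1) (hs : s ≠ 0)
    (halg : IsAlgebraic ℚ t) (hsplit : ((minpoly ℚ t).map (algebraMap ℚ ℝ)).Splits)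
    (hroots : ∀ y : ℝ, aeval y (minpoly ℚ t) = 0 → |y| < 1) :
    IsRamsey (kite t s) ∧ IsSubtransitive (kite t s) := by
  by_cases ht0 : t = 0
  · subst ht0
    refine ⟨square_ramsey s hts, ?_⟩
    have := kite_subtransitive_rat 0 (by simp) s (by simpa using hts)
    simpa using this
  · obtain ⟨Z, _, _, r, v, ε, m, hε, hv, hr, ⟨z1, hz1⟩, hm⟩ :=
      eigen_system t ht0 halg hsplit hroots
    obtain ⟨k, u, σ, Nn, p, hu, hp, hN, hm2⟩ := counts_of_eigen Z t⁻¹ r v ε m hε hv hr hm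
    obtain ⟨f, η, sp, hm3, hsp⟩ := design_of_counts k Z t⁻¹ u σ Nn p hp hN m hm2
    obtain ⟨i, hfi, hspi⟩ := hsp hu
    exact kite_of_design k Z t ht0 f η sp m hm3 ⟨i, z1, hspi z1, by rw [hfi, add_zero]; exact hz1⟩
      s hts hs

/-- no conjugate of `t` is `1` or `-1`. -/
lemma conj_abs_ne_one (t s : ℝ) (hts : t ^ 2 + s ^ 2 = 1) (hs : s ≠ 0) (halg : IsAlgebraic ℚ t)
    (y : ℝ) (hy : aeval y (minpoly ℚ t) = 0) : |y| ≠ 1 := by
  intro habs
  obtain ⟨q, hq, hq2⟩ : ∃ q : ℚ, (q : ℝ) = y ∧ q ^ 2 = 1 := by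
    rcases (abs_eq (by norm_num : (0:ℝ) ≤ 1)).1 habs with h | h
    · exact ⟨1, by simp [h], by norm_num⟩
    · exact ⟨-1, by simp [h], by norm_num⟩
  have hirr := minpoly.irreducible halg.isIntegral
  have hmon := minpoly.monic halg.isIntegral
  have h1 : minpoly ℚ t = minpoly ℚ y := minpoly.eq_of_irreducible_of_monic hirr hy hmon
  have h2 : minpoly ℚ y = X - C q := by
    rw [← hq]
    exact minpoly.eq_X_sub_C ℝ q
  have h3 : aeval t (X - C q : ℚ[X]) = 0 := by
    rw [← h2, ← h1]; exact minpoly.aeval ℚ t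
  have h4 : t = q := by
    simp at h3
    linarith
  have h5 : t ^ 2 = 1 := by rw [h4]; exact_mod_cast hq2
  apply hs
  have : s ^ 2 = 0 := by linarith
  exact pow_eq_zero_iff (by norm_num) |>.1 this

theorem kite_totally_real_iff (t s : ℝ) (hts : t ^ 2 + s ^ 2 = 1) (hs : s ≠ 0)
    (halg : IsAlgebraic ℚ t) (hsplit : ((minpoly ℚ t).map (algebraMap ℚ ℝ)).Splits) :
    (IsSubtransitive (kite t s) ↔ ∀ y : ℝ, aeval y (minpoly ℚ t) = 0 → |y| < 1) ∧
      (IsSubtransitive (kite t s) → IsRamsey (kite t s)) := by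
  have key : IsSubtransitive (kite t s) → ∀ y : ℝ, aeval y (minpoly ℚ t) = 0 → |y| < 1 := by
    intro h y hy
    by_contra hlt
    rcases lt_or_eq_of_le (not_lt.1 hlt) with h1 | h1
    · exact kite_not_subtransitive_algebraic t s hs halg y hy h1 h
    · exact conj_abs_ne_one t s hts hs halg y hy h1.symm
  exact ⟨⟨key, fun h => (kite_totally_real t s hts hs halg hsplit h).2⟩,
    fun h => (kite_totally_real t s hts hs halg hsplit (key h)).1⟩

end Vale.Agent.P058
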