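import Mathlib

/-!
# A Lagrange interpolation identity (task L)

`G = ∏ j, (X - C (ξ j)) - ∏ j, (X - C (r j))` has degree `< card ι` (both products are monic of
degree `card ι`) and `G (r i) = ∏ j, (r i - ξ j)`.  By `Lagrange.eq_interpolate` (nodes `r`),
`G = ∑ i, C (G (r i)) * Lagrange.basis univ r i`.  Evaluate at `x`:
`G x = - ∏ j, (x - r j)` and `basis i x = ∏ j ≠ i, (x - r j) / (r i - r j)`; divide by
`∏ j, (x - r j) ≠ 0`.
-/

namespace Vale.Agent.P058

open Finset

theorem lagrange_sum {ι : Type} [Fintype ι] [DecidableEq ι] (ξ r : ι → ℝ)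
    (hr : Function.Injective r) (x : ℝ) (hx : ∏ j, (x - ξ j) = 0) (hxr : ∀ i, x ≠ r i) :
    ∑ i, (-(∏ j, (r i - ξ j)) / ∏ j ∈ univ.erase i, (r i - r j)) / (x - r i) = 1 := by
  classical
  set A : Polynomial ℝ := ∏ j, (Polynomial.X - Polynomial.C (ξ j)) with hA
  set B : Polynomial ℝ := ∏ j, (Polynomial.X - Polynomial.C (r j)) with hB
  have hAm : A.Monic := Polynomial.monic_prod_of_monic _ _ (fun j _ => Polynomial.monic_X_sub_C _)
  have hBm : B.Monic := Polynomial.monic_prod_of_monic _ _ (fun j _ => Polynomial.monic_X_sub_C _)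
  have hAd : A.natDegree = Fintype.card ι := by
    rw [hA, Polynomial.natDegree_prod_of_monic _ _ (fun j _ => Polynomial.monic_X_sub_C _)]
    simp
  have hBd : B.natDegree = Fintype.card ι := by
    rw [hB, Polynomial.natDegree_prod_of_monic _ _ (fun j _ => Polynomial.monic_X_sub_C _)]
    simp
  have hdeg : (A - B).degree < (univ : Finset ι).card := by
    have h1 : (A - B).degree < A.degree := by
      apply Polynomial.degree_sub_lt_left
      · rw [Polynomial.degree_eq_natDegree hAm.ne_zero, Polynomial.degree_eq_natDegree hBm.ne_zero,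
          hAd, hBd]
      · exact hAm.ne_zero
      · rw [hAm.leadingCoeff, hBm.leadingCoeff]
    rw [Polynomial.degree_eq_natDegree hAm.ne_zero, hAd] at h1
    simpa using h1
  have hint := Lagrange.eq_interpolate (s := (univ : Finset ι)) (v := r) (hr.injOn) hdeg
  have heval := congrArg (Polynomial.eval x) hint
  rw [Lagrange.interpolate_apply, Polynomial.eval_finsetSum] at heval
  have hAx : A.eval x = 0 := by
    rw [hA, Polynomial.eval_prod]
    simpa using hx
  have hBx : B.eval x = ∏ j, (x - r j) := by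
    rw [hB, Polynomial.eval_prod]
    simp
  have hBr : ∀ i, B.eval (r i) = 0 := by
    intro i
    rw [hB, Polynomial.eval_prod]
    apply Finset.prod_eq_zero (mem_univ i)
    simp
  have hAr : ∀ i, A.eval (r i) = ∏ j, (r i - ξ j) := by
    intro i
    rw [hA, Polynomial.eval_prod]
    simp
  have hP : (∏ j, (x - r j)) ≠ 0 := Finset.prod_ne_zero_iff.mpr (fun j _ => sub_ne_zero.mpr (hxr j))
  rw [Polynomial.eval_sub, hAx, hBx, zero_sub] at heval
  have hterm : ∀ i, Polynomial.eval x (Polynomial.C (Polynomial.eval (r i) (A - B)) *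
      Lagrange.basis univ r i) =
      -((-(∏ j, (r i - ξ j)) / ∏ j ∈ univ.erase i, (r i - r j)) / (x - r i)) *
        ∏ j, (x - r j) := by
    intro i
    rw [Polynomial.eval_mul, Polynomial.eval_C, Polynomial.eval_sub, hAr, hBr, sub_zero,
      Lagrange.basis, Polynomial.eval_prod]
    have h1 : ∀ j ∈ univ.erase i, Polynomial.eval x (Lagrange.basisDivisor (r i) (r j)) =
        (r i - r j)⁻¹ * (x - r j) := by
      intro j _
      simp [Lagrange.basisDivisor]
    rw [Finset.prod_congr rfl h1, Finset.prod_mul_distrib, Finset.prod_inv_distrib]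
    have h2 : ∏ j, (x - r j) = (x - r i) * ∏ j ∈ univ.erase i, (x - r j) :=
      (Finset.mul_prod_erase univ (fun j => x - r j) (mem_univ i)).symm
    rw [h2]
    have h3 : x - r i ≠ 0 := sub_ne_zero.mpr (hxr i)
    field_simp
  rw [Finset.sum_congr rfl (fun i _ => hterm i), ← Finset.sum_mul, Finset.sum_neg_distrib] at heval
  have : (∑ i, (-(∏ j, (r i - ξ j)) / ∏ j ∈ univ.erase i, (r i - r j)) / (x - r i)) *
      ∏ j, (x - r j) = 1 * ∏ j, (x - r j) := by linarith
  exact mul_right_cancel₀ hP this

end Vale.Agent.P058
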