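import Vale.Agent.P058.MergeOrbit

/-!
# Merging all orbits of one permutation (task M2)

`ach_merge`: Finset induction over the set `s` of treated points `o`:
`∃ R, Equivalence R ∧ (∀ x y, R x y → R (c x) (c y)) ∧ (∀ x y, R₀ x y → R x y) ∧
  (∀ o ∈ s, R o (c o)) ∧ Ach K R`
(insert step: replace `R` by `Qrel R c o`, lemmas of `MergeOrbit.lean`).
For `s = univ` the relation `R` contains the generated equivalence (induction on `EqvGen`);
conclude by `Ach.mono`.
-/

namespace Vale.Agent.P058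

variable {X : Type}

theorem ach_merge_aux [Finite X] (K : X → X → ℝ) (c : Equiv.Perm X) (hK0 : ∀ x, K x x = 0)
    (hKc : ∀ x y, K (c x) (c y) = K x y)
    (R₀ : X → X → Prop) (hR₀ : Equivalence R₀) (hc : ∀ x y, R₀ x y → R₀ (c x) (c y))
    (hA : Ach K R₀) (s : Finset X) :
    ∃ R : X → X → Prop, Equivalence R ∧ (∀ x y, R x y → R (c x) (c y)) ∧
      (∀ x y, R₀ x y → R x y) ∧ (∀ o ∈ s, R o (c o)) ∧ Ach K R := by
  classical
  induction s using Finset.induction_on with
  | empty => exact ⟨R₀, hR₀, hc, fun _ _ h => h, by simp, hA⟩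
  | insert o s _ ih =>
    obtain ⟨R, hR, hRc, hR0, hRs, hRA⟩ := ih
    refine ⟨Qrel R c o, Qrel.equivalence hR c o, Qrel.pres c hRc o,
      fun x y h => Or.inl (hR0 x y h), ?_, ach_merge_orbit K c hK0 hKc R hR hRc hRA o⟩
    intro p hp
    rcases Finset.mem_insert.1 hp with rfl | hp
    · exact Qrel.orbit hR c p
    · exact Or.inl (hRs p hp)

theorem ach_merge [Finite X] (K : X → X → ℝ) (c : Equiv.Perm X) (hK0 : ∀ x, K x x = 0)
    (hKc : ∀ x y, K (c x) (c y) = K x y)
    (R₀ : X → X → Prop) (hR₀ : Equivalence R₀) (hc : ∀ x y, R₀ x y → R₀ (c x) (c y))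
    (hA : Ach K R₀) : Ach K (Relation.EqvGen (fun x y => R₀ x y ∨ y = c x)) := by
  classical
  have := Fintype.ofFinite X
  obtain ⟨R, hR, _, hR0, hRs, hRA⟩ := ach_merge_aux K c hK0 hKc R₀ hR₀ hc hA Finset.univ
  refine Ach.mono ?_ hRA
  intro x y h
  induction h with
  | rel x y h =>
    rcases h with h | rfl
    · exact hR0 x y h
    · exact hRs x (Finset.mem_univ x)
  | refl x => exact hR.refl x
  | symm x y _ ih => exact hR.symm ih
  | trans x y z _ _ ih1 ih2 => exact hR.trans ih1 ih2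

end Vale.Agent.P058
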