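import Vale.Agent.P058.Block

/-!
# Merging one orbit (task M1)

* `ach_merge_orbit`: induction on `k` gives `Ach K (Rk R₀ c o k)` for all `k` (`Ach.step`,
  `step_of_step1`, `step1_cyclic` with `n = orderOf c`, `orderOf_pos`, `pow_orderOf_eq_one`;
  base `k = 0` by `Ach.mono` because `Rk R₀ c o 0 x y → R₀ x y`).
  `Qrel x y → Rk n x y` by reducing exponents mod `n` (`pow_eq_pow_mod`), then `Ach.mono`.
* `Qrel` is an equivalence relation preserved by `c`, containing `R₀`, and `Qrel o (c o)`.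
-/

namespace Vale.Agent.P058

variable {X : Type}

def Qrel (R₀ : X → X → Prop) (c : Equiv.Perm X) (o : X) (x y : X) : Prop :=
  R₀ x y ∨ ((∃ t : ℕ, R₀ x ((c ^ t) o)) ∧ (∃ t : ℕ, R₀ y ((c ^ t) o)))

lemma Qrel.equivalence {R₀ : X → X → Prop} (hR₀ : Equivalence R₀) (c : Equiv.Perm X) (o : X) :
    Equivalence (Qrel R₀ c o) := by
  refine ⟨fun x => Or.inl (hR₀.refl x), ?_, ?_⟩
  · rintro x y (h | ⟨h1, h2⟩)
    · exact Or.inl (hR₀.symm h)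
    · exact Or.inr ⟨h2, h1⟩
  · rintro x y z (h | ⟨⟨t1, h1⟩, ⟨t2, h2⟩⟩) (h' | ⟨⟨t3, h3⟩, ⟨t4, h4⟩⟩)
    · exact Or.inl (hR₀.trans h h')
    · exact Or.inr ⟨⟨t3, hR₀.trans h h3⟩, ⟨t4, h4⟩⟩
    · exact Or.inr ⟨⟨t1, h1⟩, ⟨t2, hR₀.trans (hR₀.symm h') h2⟩⟩
    · exact Or.inr ⟨⟨t1, h1⟩, ⟨t4, h4⟩⟩

lemma Qrel.pres {R₀ : X → X → Prop} (c : Equiv.Perm X)
    (hc : ∀ x y, R₀ x y → R₀ (c x) (c y)) (o : X) :
    ∀ x y, Qrel R₀ c o x y → Qrel R₀ c o (c x) (c y) := by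
  rintro x y (h | ⟨⟨t1, h1⟩, ⟨t2, h2⟩⟩)
  · exact Or.inl (hc _ _ h)
  · refine Or.inr ⟨⟨t1 + 1, ?_⟩, ⟨t2 + 1, ?_⟩⟩
    · have := hc _ _ h1
      rwa [pow_succ', Equiv.Perm.mul_apply]
    · have := hc _ _ h2
      rwa [pow_succ', Equiv.Perm.mul_apply]

lemma Qrel.orbit {R₀ : X → X → Prop} (hR₀ : Equivalence R₀) (c : Equiv.Perm X) (o : X) :
    Qrel R₀ c o o (c o) := by
  refine Or.inr ⟨⟨0, ?_⟩, ⟨1, ?_⟩⟩
  · simpa using hR₀.refl o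
  · simpa using hR₀.refl (c o)

theorem ach_merge_orbit [Finite X] (K : X → X → ℝ) (c : Equiv.Perm X) (hK0 : ∀ x, K x x = 0)
    (hKc : ∀ x y, K (c x) (c y) = K x y)
    (R₀ : X → X → Prop) (hR₀ : Equivalence R₀) (hc : ∀ x y, R₀ x y → R₀ (c x) (c y))
    (hA : Ach K R₀) (o : X) : Ach K (Qrel R₀ c o) := by
  have hn : 0 < orderOf c := orderOf_pos c
  have hcn : c ^ orderOf c = 1 := pow_orderOf_eq_one c
  have hk : ∀ k : ℕ, Ach K (Rk R₀ c o k) := by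
    intro k
    induction k with
    | zero =>
      refine Ach.mono ?_ hA
      rintro x y (h | ⟨⟨t1, ht1, h1⟩, ⟨t2, ht2, h2⟩⟩)
      · exact h
      · obtain rfl : t1 = 0 := by omega
        obtain rfl : t2 = 0 := by omega
        exact hR₀.trans h1 (hR₀.symm h2)
    | succ k ih =>
      exact Ach.step ih (step_of_step1 (fun x => Or.inl (hR₀.refl x))
        (step1_cyclic K c hK0 hKc (orderOf c) hn hcn R₀ hR₀ hc o k)) hn
  refine Ach.mono ?_ (hk (orderOf c))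
  rintro x y (h | ⟨⟨t1, h1⟩, ⟨t2, h2⟩⟩)
  · exact Or.inl h
  · refine Or.inr ⟨⟨t1 % orderOf c, (Nat.mod_lt _ hn).le, ?_⟩,
      ⟨t2 % orderOf c, (Nat.mod_lt _ hn).le, ?_⟩⟩
    · rwa [← pow_eq_pow_mod t1 hcn]
    · rwa [← pow_eq_pow_mod t2 hcn]

end Vale.Agent.P058
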