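import Vale.Agent.P058.Defs

namespace Vale.Agent.P058

/-- `A` is Ramsey: for every number `r` of colours there is a dimension `D` such that every
colouring of `E D` with `r` colours is constant on a congruent copy of `A`, i.e. on the image of `A`
under a map preserving all pairwise distances of points of `A`. -/
def IsRamsey {d : ℕ} (A : Set (E d)) : Prop :=
  ∀ r : ℕ, ∃ D : ℕ, ∀ col : E D → Fin r, ∃ f : E d → E D,
    (∀ a ∈ A, ∀ b ∈ A, dist (f a) (f b) = dist a b) ∧ ∀ a ∈ A, ∀ b ∈ A, col (f a) = col (f b)

end Vale.Agent.P058
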