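import Vale.Agent.P058.Ach
import Vale.Agent.P058.RamseyDefs

/-!
# Euclidean realisation (task E1)

`mono_of_ach`: use `Ach` with `α = Unit`, colour type `Fin r`.  With `β`, `d` put
`D = Fintype.card (β × Ω)`, and send a word `w : β → X` to the point of `E D` with coordinates
`e (w b) ω / √d` (transported along `Fintype.equivFin (β × Ω)`, `WithLp.toLp 2`).  The squared
distance of the points of `w`, `w'` is `wdist K w w' / d` (`EuclideanSpace.dist_eq`,
`Equiv.sum_comp`, `Fintype.sum_prod_type`).  `φ x` is the point of `L (fun _ => x)`.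
-/

namespace Vale.Agent.P058

open Finset

theorem mono_of_ach {X : Type} {Ω : Type} [Fintype Ω] (e : X → Ω → ℝ) (R : X → X → Prop)
    (h : Ach (fun x y => ∑ ω, (e x ω - e y ω) ^ 2) R) (r : ℕ) :
    ∃ D : ℕ, ∀ col : E D → Fin r, ∃ φ : X → E D,
      (∀ x y, dist (φ x) (φ y) ^ 2 = ∑ ω, (e x ω - e y ω) ^ 2) ∧
      ∀ x y, R x y → col (φ x) = col (φ y) := by
  classical
  obtain ⟨β, hβ, d, hd, H⟩ := h (Fin r) Unit
  have hd' : (0 : ℝ) < d := by exact_mod_cast hd
  set eqv := Fintype.equivFin (β × Ω) with heqv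
  -- the point of a word
  let pt : (β → X) → E (Fintype.card (β × Ω)) := fun w =>
    WithLp.toLp 2 (fun i => e (w (eqv.symm i).1) (eqv.symm i).2 / Real.sqrt d)
  have hpt : ∀ w w' : β → X, dist (pt w) (pt w') ^ 2 =
      wdist (fun x y => ∑ ω, (e x ω - e y ω) ^ 2) w w' / d := by
    intro w w'
    rw [EuclideanSpace.dist_eq, Real.sq_sqrt (Finset.sum_nonneg (fun i _ => sq_nonneg _))]
    have h1 : ∀ i, dist ((pt w).ofLp i) ((pt w').ofLp i) ^ 2 =
        (fun p : β × Ω => (e (w p.1) p.2 - e (w' p.1) p.2) ^ 2 / d) (eqv.symm i) := by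
      intro i
      simp only [pt]
      rw [Real.dist_eq, sq_abs, ← sub_div, div_pow, Real.sq_sqrt hd'.le]
    rw [Finset.sum_congr rfl (fun i _ => h1 i), Equiv.sum_comp eqv.symm
      (fun p : β × Ω => (e (w p.1) p.2 - e (w' p.1) p.2) ^ 2 / d), Fintype.sum_prod_type]
    simp only [wdist]
    rw [Finset.sum_div]
    refine Finset.sum_congr rfl (fun b _ => ?_)
    rw [Finset.sum_div]
  refine ⟨Fintype.card (β × Ω), fun col => ?_⟩
  obtain ⟨L, hL, hI⟩ := H (fun w => col (pt w))
  refine ⟨fun x => pt (L (fun _ => x)), ?_, ?_⟩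
  · intro x y
    rw [hpt, hL]
    simp only [wdist, Finset.univ_unique, Finset.sum_const, Finset.card_singleton, one_smul]
    field_simp
  · intro x y hxy
    exact hI (fun _ => x) (fun _ => y) (fun _ => hxy)

end Vale.Agent.P058
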