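import Vale.Agent.P058.Defs

namespace Vale.Agent.P058

open scoped BigOperators RealInnerProductSpace

lemma sum_comp_isom {n : ℕ} (S : Finset (E n)) (f : E n ≃ᵢ E n)
    (hf : f '' (S : Set (E n)) = S) (F : E n → ℝ) :
    ∑ y ∈ S, F (f y) = ∑ y ∈ S, F y := by
  refine Finset.sum_nbij f ?_ ?_ ?_ (fun _ _ => rfl)
  · intro y hy
    have : f y ∈ f '' (S : Set (E n)) := Set.mem_image_of_mem _ hy
    rw [hf] at this
    exact this
  · exact f.injective.injOn
  · intro y hy
    rw [← hf] at hy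
    exact hy

lemma core_real {α J : Type*} [Fintype J] (S : Finset α) (G : J → α → ℝ) (w : J → ℝ) (j0 : J)
    (hw0 : ∑ j, w j = 0) (hneg : ∀ j, j ≠ j0 → w j ≤ 0)
    (hrel : ∀ y ∈ S, ∑ j, w j * G j y = 0)
    (hsq : ∀ j, ∑ y ∈ S, (G j y) ^ 2 = ∑ y ∈ S, (G j0 y) ^ 2) :
    ∀ j, w j ≠ 0 → ∀ y ∈ S, G j y = G j0 y := by
  have key : ∑ y ∈ S, ∑ j, (-(w j)) * (G j y - G j0 y) ^ 2 = 0 := by
    have h1 : ∀ y ∈ S, ∑ j, (-(w j)) * (G j y - G j0 y) ^ 2
        = -(∑ j, w j * (G j y) ^ 2) + 2 * G j0 y * (∑ j, w j * G j y)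
          - (G j0 y) ^ 2 * ∑ j, w j := by
      intro y _
      rw [Finset.mul_sum, Finset.mul_sum, ← Finset.sum_neg_distrib, ← Finset.sum_add_distrib,
        ← Finset.sum_sub_distrib]
      refine Finset.sum_congr rfl (fun j _ => by ring)
    rw [Finset.sum_congr rfl h1]
    have h2 : ∀ y ∈ S, -(∑ j, w j * (G j y) ^ 2) + 2 * G j0 y * (∑ j, w j * G j y)
          - (G j0 y) ^ 2 * ∑ j, w j = -(∑ j, w j * (G j y) ^ 2) := by
      intro y hy
      rw [hrel y hy, hw0]; ring
    rw [Finset.sum_congr rfl h2, Finset.sum_neg_distrib, Finset.sum_comm]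
    simp_rw [← Finset.mul_sum, hsq, ← Finset.sum_mul, hw0]
    simp
  have hnn : ∀ y ∈ S, ∀ j ∈ (Finset.univ : Finset J), 0 ≤ (-(w j)) * (G j y - G j0 y) ^ 2 := by
    intro y _ j _
    by_cases hj : j = j0
    · subst hj; simp
    · exact mul_nonneg (by linarith [hneg j hj]) (sq_nonneg _)
  intro j hj y hy
  have h3 := (Finset.sum_eq_zero_iff_of_nonneg
    (fun y hy => Finset.sum_nonneg (hnn y hy))).1 key y hy
  have h4 := (Finset.sum_eq_zero_iff_of_nonneg (hnn y hy)).1 h3 j (Finset.mem_univ j)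
  have h5 : (G j y - G j0 y) ^ 2 = 0 := by
    rcases mul_eq_zero.1 h4 with h | h
    · exact absurd (neg_eq_zero.1 h) hj
    · exact h
  have h6 : G j y - G j0 y = 0 := by simpa using h5
  linarith

/-- Arithmetic obstruction: if points of a finite transitive set satisfy an affine dependency whose
coefficients lie in a field `K` (embedded in the reals by `i`), then for any other real embedding
`s` of `K` the conjugated coefficient vector cannot have all entries but one nonpositive, unless the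
points involved coincide. -/
theorem obstruction {n : ℕ} {X : Set (E n)} (hX : IsTransitiveSet X)
    {K : Type*} [Field K] (i s : K →+* ℝ) {J : Type*} [Fintype J]
    (x : J → E n) (hx : ∀ j, x j ∈ X) (μ : J → K) (hμ : ∑ j, μ j = 0)
    (hrel : ∑ j, i (μ j) • x j = 0) (j0 : J) (hneg : ∀ j, j ≠ j0 → s (μ j) ≤ 0) :
    ∀ j, μ j ≠ 0 → x j = x j0 := by
  classical
  obtain ⟨hfin, htr⟩ := hX
  set S : Finset (E n) := hfin.toFinset with hS
  have hSX : (S : Set (E n)) = X := by simp [hS]
  choose f hf1 hf2 using fun j => htr (x j0) (hx j0) (x j) (hx j)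
  let D : J → E n → ℝ := fun j y => ‖y - x j‖ ^ 2
  have hD : ∀ j y, D j (f j y) = D j0 y := by
    intro j y
    simp only [D]
    rw [← hf2 j, ← dist_eq_norm, ← dist_eq_norm, (f j).dist_eq]
  have hiμ : ∑ j, i (μ j) = 0 := by rw [← map_sum, hμ, map_zero]
  -- the dependency for squared distances, up to a constant
  have hconst : ∀ y, ∑ j, i (μ j) * D j y = ∑ j, i (μ j) * ‖x j‖ ^ 2 := by
    intro y
    have h1 : ∀ j, i (μ j) * D j y
        = i (μ j) * ‖y‖ ^ 2 - 2 * ⟪y, i (μ j) • x j⟫ + i (μ j) * ‖x j‖ ^ 2 := by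
      intro j
      simp only [D]
      rw [norm_sub_sq_real, inner_smul_right]; ring
    simp_rw [h1]
    rw [Finset.sum_add_distrib, Finset.sum_sub_distrib, ← Finset.sum_mul, hiμ, ← Finset.mul_sum,
      ← inner_sum, hrel]
    simp
  have hsumD : ∀ j, ∑ y ∈ S, D j y = ∑ y ∈ S, D j0 y := by
    intro j
    rw [← sum_comp_isom S (f j) (by rw [hSX]; exact hf1 j) (D j)]
    exact Finset.sum_congr rfl (fun y _ => hD j y)
  have hzero : ∑ j, i (μ j) * ‖x j‖ ^ 2 = 0 := by
    have h1 : ∑ y ∈ S, ∑ j, i (μ j) * D j y = 0 := by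
      rw [Finset.sum_comm]
      simp_rw [← Finset.mul_sum, hsumD, ← Finset.sum_mul, hiμ]
      simp
    simp_rw [hconst] at h1
    rw [Finset.sum_const, nsmul_eq_mul] at h1
    have hne : (S.card : ℝ) ≠ 0 := by
      have : x j0 ∈ S := by rw [← Finset.mem_coe, hSX]; exact hx j0
      exact_mod_cast (Finset.card_pos.2 ⟨_, this⟩).ne'
    rcases mul_eq_zero.1 h1 with h | h
    · exact absurd h hne
    · exact h
  have hrelD : ∀ y, ∑ j, i (μ j) * D j y = 0 := fun y => (hconst y).trans hzero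
  intro j1 hj1
  by_contra hne
  let _inst : Algebra K ℝ := i.toAlgebra
  have hr : D j1 (x j0) ≠ 0 := by
    simp only [D]
    intro h
    apply hne
    have : x j0 - x j1 = 0 := by simpa using h
    exact (sub_eq_zero.1 this).symm
  obtain ⟨φ, hφ⟩ := Module.Projective.exists_dual_ne_zero K hr
  let G : J → E n → ℝ := fun j y => s (φ (D j y))
  have hG : ∀ j y, G j (f j y) = G j0 y := by
    intro j y; simp only [G]; rw [hD]
  have hsq : ∀ j, ∑ y ∈ S, (G j y) ^ 2 = ∑ y ∈ S, (G j0 y) ^ 2 := by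
    intro j
    rw [← sum_comp_isom S (f j) (by rw [hSX]; exact hf1 j) (fun y => (G j y) ^ 2)]
    exact Finset.sum_congr rfl (fun y _ => by rw [hG j y])
  have hrelG : ∀ y ∈ S, ∑ j, s (μ j) * G j y = 0 := by
    intro y _
    simp only [G]
    have h1 : ∑ j, μ j • D j y = 0 := by
      have := hrelD y
      simpa [Algebra.smul_def, RingHom.algebraMap_toAlgebra] using this
    have h2 : ∑ j, μ j * φ (D j y) = 0 := by
      have := congrArg φ h1
      simpa [map_sum] using this
    have h3 := congrArg s h2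
    simpa [map_sum] using h3
  have hw0 : ∑ j, s (μ j) = 0 := by rw [← map_sum, hμ, map_zero]
  have hfinal := core_real S G (fun j => s (μ j)) j0 hw0 hneg hrelG hsq j1
    (by simpa using hj1) (x j0) (by rw [← Finset.mem_coe, hSX]; exact hx j0)
  simp only [G, D] at hfinal
  rw [sub_self] at hfinal
  simp only [norm_zero, ne_eq, OfNat.ofNat_ne_zero, not_false_eq_true, zero_pow, map_zero] at hfinal
  have : φ (D j1 (x j0)) = 0 := by
    simpa [D] using hfinal
  exact hφ this

end Vale.Agent.P058
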