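import Vale.Agent.P058.Obstruction

namespace Vale.Agent.P058

open scoped BigOperators RealInnerProductSpace

lemma norm_sq_sum_of_sum_zero {V : Type*} [NormedAddCommGroup V] [InnerProductSpace ℝ V]
    {J : Type*} [Fintype J] (m : J → ℝ) (hm : ∑ j, m j = 0) (z : J → V) :
    ‖∑ j, m j • z j‖ ^ 2 = -(1 / 2) * ∑ a, ∑ b, m a * m b * ‖z a - z b‖ ^ 2 := by
  have h1 : ‖∑ j, m j • z j‖ ^ 2 = ∑ a, ∑ b, m a * m b * ⟪z a, z b⟫ := by
    rw [← real_inner_self_eq_norm_sq, sum_inner]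
    refine Finset.sum_congr rfl (fun a _ => ?_)
    rw [inner_sum]
    refine Finset.sum_congr rfl (fun b _ => ?_)
    rw [inner_smul_left, inner_smul_right]
    simp [mul_assoc]
  have h2 : ∀ a b, m a * m b * ‖z a - z b‖ ^ 2
      = (m a * ‖z a‖ ^ 2) * m b - 2 * (m a * m b * ⟪z a, z b⟫) + m a * (m b * ‖z b‖ ^ 2) := by
    intro a b
    rw [norm_sub_sq_real]; ring
  have hA : ∑ a, ∑ b, (m a * ‖z a‖ ^ 2) * m b = 0 := by
    simp_rw [← Finset.mul_sum, hm]; simp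
  have hC : ∑ a, ∑ b, m a * (m b * ‖z b‖ ^ 2) = 0 := by
    simp_rw [← Finset.mul_sum, ← Finset.sum_mul, hm]; simp
  have hB : ∑ a, ∑ b, m a * m b * ‖z a - z b‖ ^ 2
      = -2 * ∑ a, ∑ b, m a * m b * ⟪z a, z b⟫ := by
    simp_rw [h2, Finset.sum_add_distrib, Finset.sum_sub_distrib]
    rw [hA, hC]
    simp_rw [← Finset.mul_sum]
    ring
  rw [hB, h1]; ring

/-- The obstruction for subtransitive sets. -/
theorem obstruction_subtransitive {d : ℕ} {A : Set (E d)} (hA : IsSubtransitive A)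
    {K : Type*} [Field K] (i s : K →+* ℝ) {J : Type*} [Fintype J]
    (y : J → E d) (hy : ∀ j, y j ∈ A) (μ : J → K) (hμ : ∑ j, μ j = 0)
    (hrel : ∑ j, i (μ j) • y j = 0) (j0 : J) (hneg : ∀ j, j ≠ j0 → s (μ j) ≤ 0) :
    ∀ j, μ j ≠ 0 → y j = y j0 := by
  obtain ⟨n, X, g, hX, hgX, hg⟩ := hA
  have hiμ : ∑ j, i (μ j) = 0 := by rw [← map_sum, hμ, map_zero]
  have hrel' : ∑ j, i (μ j) • g (y j) = 0 := by
    have h1 := norm_sq_sum_of_sum_zero (fun j => i (μ j)) hiμ (fun j => g (y j))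
    have h2 := norm_sq_sum_of_sum_zero (fun j => i (μ j)) hiμ y
    have h3 : ∀ a b, ‖g (y a) - g (y b)‖ = ‖y a - y b‖ := by
      intro a b
      rw [← dist_eq_norm, ← dist_eq_norm]
      exact hg _ (hy a) _ (hy b)
    simp_rw [h3] at h1
    rw [← h2, hrel] at h1
    simpa using h1
  intro j hj
  have h := obstruction hX i s (fun j => g (y j)) (fun j => hgX _ (hy j)) μ hμ hrel' j0 hneg j hj
  have h4 := hg _ (hy j) _ (hy j0)
  rw [h, dist_self] at h4
  exact dist_eq_zero.1 h4.symm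

end Vale.Agent.P058
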