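import Vale.Agent.P058.ReachG

/-!
# Reachable vectors form a transitive set (task S)

`subtransitive_of_reachG`: same hypotheses as `isRamsey_of_reachG` (without `TowerOK`).
Let `F = EuclideanSpace ℝ (Lam × S)` and `X = {y : F | ReachG P a (fun ω => y ω)}`.
1. `X` is finite: by induction every reachable vector is `ev a x` for some `x : XX Lam S`
   (as in the proof of `isRamsey_of_reachG`), and `XX Lam S` is a finite type.
2. Each generator is an isometry equivalence `γ` of `F` (sign changes; coordinate permutations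
   `permL` of `BlockSet.lean`) with `γ '' X ⊆ X`; as `X` is finite and `γ` injective, `γ '' X = X`.
3. By induction on `ReachG`: for every `y ∈ X` there is `φ : F ≃ᵢ F` with `φ '' X = X` and
   `φ a = y`.  Hence `φ_y' ∘ φ_y⁻¹` maps `X` onto `X` and `y` to `y'`: `X` is transitive.
4. Transport to `E (Fintype.card (Lam × S))` exactly as in `subtransitive_of_blockSet`.
-/

namespace Vale.Agent.P058

open Finset

section
variable {ι : Type*} [Fintype ι]

/-- Changing signs of coordinates, as an isometry equivalence. -/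
noncomputable def signI (ε : ι → ℤˣ) : EuclideanSpace ℝ ι ≃ᵢ EuclideanSpace ℝ ι :=
  IsometryEquiv.mk
    { toFun := fun y => WithLp.toLp 2 (fun ω => ((ε ω : ℤ) : ℝ) * y ω)
      invFun := fun y => WithLp.toLp 2 (fun ω => ((ε ω : ℤ) : ℝ) * y ω)
      left_inv := by
        intro y
        ext ω
        rcases Int.units_eq_one_or (ε ω) with h1 | h1 <;> simp [h1]
      right_inv := by
        intro y
        ext ω
        rcases Int.units_eq_one_or (ε ω) with h1 | h1 <;> simp [h1] }
    (by
      refine Isometry.of_dist_eq fun x y => ?_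
      rw [EuclideanSpace.dist_eq, EuclideanSpace.dist_eq]
      congr 1
      refine Finset.sum_congr rfl fun ω _ => ?_
      rcases Int.units_eq_one_or (ε ω) with h1 | h1 <;> simp [h1, Real.dist_eq])

@[simp] lemma signI_apply (ε : ι → ℤˣ) (y : EuclideanSpace ℝ ι) (ω : ι) :
    signI ε y ω = ((ε ω : ℤ) : ℝ) * y ω := rfl

/-- An injective self-map of a finite set is onto. -/
lemma image_eq_of_maps {F : Type*} {X : Set F} (hX : X.Finite) (γ : F → F)
    (hγ : Function.Injective γ) (h : ∀ x ∈ X, γ x ∈ X) : γ '' X = X := by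
  apply Set.eq_of_subset_of_ncard_le (Set.image_subset_iff.2 h) _ hX
  rw [Set.ncard_image_of_injective _ hγ]

lemma image_trans {F : Type*} [PseudoEMetricSpace F] (φ ψ : F ≃ᵢ F) (X : Set F) :
    (φ.trans ψ) '' X = ψ '' (φ '' X) := by
  rw [← Set.image_comp]
  rfl

/-- A finite transitive set in `EuclideanSpace ℝ ι` containing a congruent copy of `A`. -/
theorem subtransitive_of_transitive {d : ℕ} (A : Set (E d)) (X : Set (EuclideanSpace ℝ ι))
    (hfin : X.Finite)
    (htr : ∀ x ∈ X, ∀ y ∈ X,
      ∃ f : EuclideanSpace ℝ ι ≃ᵢ EuclideanSpace ℝ ι, f '' X = X ∧ f x = y)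
    (g : E d → EuclideanSpace ℝ ι) (hg1 : ∀ a ∈ A, g a ∈ X)
    (hg2 : ∀ a ∈ A, ∀ b ∈ A, dist (g a) (g b) = dist a b) : IsSubtransitive A := by
  classical
  let e : EuclideanSpace ℝ ι ≃ₗᵢ[ℝ] E (Fintype.card ι) :=
    LinearIsometryEquiv.piLpCongrLeft 2 ℝ ℝ (Fintype.equivFin ι)
  refine ⟨Fintype.card ι, e '' X, fun a => e (g a), ⟨?_, ?_⟩, ?_, ?_⟩
  · exact hfin.image _
  · rintro _ ⟨x, hx, rfl⟩ _ ⟨y, hy, rfl⟩
    obtain ⟨f, hf1, hf2⟩ := htr x hx y hy
    refine ⟨e.symm.toIsometryEquiv.trans (f.trans e.toIsometryEquiv), ?_, ?_⟩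
    · ext z
      constructor
      · rintro ⟨_, ⟨w, hw, rfl⟩, rfl⟩
        refine ⟨f w, ?_, by simp⟩
        rw [← hf1]; exact ⟨w, hw, rfl⟩
      · rintro ⟨w, hw, rfl⟩
        rw [← hf1] at hw
        obtain ⟨u, hu, rfl⟩ := hw
        exact ⟨e u, ⟨u, hu, rfl⟩, by simp⟩
    · simp [hf2]
  · intro a ha
    exact ⟨g a, hg1 a ha, rfl⟩
  · intro a ha b hb
    rw [e.dist_map]
    exact hg2 a ha b hb

end

variable {Lam S : Type}

theorem subtransitive_of_reachG [Fintype Lam] [Fintype S] [AddCommGroup S] {d : ℕ} (A : Set (E d))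
    (P : Set (Equiv.Perm Lam)) (a : Lam × S → ℝ) (g : E d → Lam × S → ℝ)
    (hg : ∀ p ∈ A, ReachG P a (g p))
    (hd : ∀ p ∈ A, ∀ q ∈ A, ∑ ω, (g p ω - g q ω) ^ 2 = dist p q ^ 2) : IsSubtransitive A := by
  classical
  let T : (Lam × S → ℝ) → EuclideanSpace ℝ (Lam × S) := fun x => WithLp.toLp 2 x
  have hT : ∀ x ω, T x ω = x ω := fun x ω => rfl
  set X : Set (EuclideanSpace ℝ (Lam × S)) := {y | ReachG P a (fun ω => y ω)} with hX
  -- finiteness
  have key : ∀ y, ReachG P a y → ∃ x : XX Lam S, ev a x = y := by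
    intro y hy
    induction hy with
    | base =>
      refine ⟨fun ω => (1, ω), ?_⟩
      funext ω
      simp [ev]
    | sign ε h ih =>
      obtain ⟨x, rfl⟩ := ih
      refine ⟨signP ε x, ?_⟩
      funext ω
      simp [ev, signP, mul_assoc]
    | transl v h ih =>
      obtain ⟨x, rfl⟩ := ih
      refine ⟨permP (Vale.Agent.P058.transl v) x, ?_⟩
      funext ω
      simp [ev, permP, Vale.Agent.P058.transl]
    | perm π hπ h ih =>
      obtain ⟨x, rfl⟩ := ih
      refine ⟨permP (shiftP π) x, ?_⟩
      funext ω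
      simp [ev, permP, shiftP]
  have hfin : X.Finite := by
    refine (Set.finite_range (fun x : XX Lam S => T (ev a x))).subset ?_
    intro y hy
    obtain ⟨x, hx⟩ := key _ hy
    refine ⟨x, ?_⟩
    ext ω
    rw [hT, hx]
  -- generators preserve `X`
  have hsign : ∀ ε : Lam × S → ℤˣ, (signI ε) '' X = X := by
    intro ε
    refine image_eq_of_maps hfin _ (signI ε).injective ?_
    intro y hy
    exact ReachG.sign ε hy
  have htransl : ∀ v : Lam → S,
      (permL (Vale.Agent.P058.transl v)).toIsometryEquiv '' X = X := by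
    intro v
    refine image_eq_of_maps hfin _ (permL (Vale.Agent.P058.transl v)).toIsometryEquiv.injective ?_
    intro y hy
    have := ReachG.transl v hy
    show ReachG P a (fun ω => permL (Vale.Agent.P058.transl v) y ω)
    simpa [Vale.Agent.P058.transl] using this
  have hperm : ∀ π ∈ P, (permL (shiftP (S := S) π)).toIsometryEquiv '' X = X := by
    intro π hπ
    refine image_eq_of_maps hfin _ (permL (shiftP (S := S) π)).toIsometryEquiv.injective ?_
    intro y hy
    have := ReachG.perm π hπ hy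
    show ReachG P a (fun ω => permL (shiftP (S := S) π) y ω)
    simpa [shiftP] using this
  -- every reachable vector is the image of `a` under a symmetry of `X`
  have hsym : ∀ y, ReachG P a y →
      ∃ φ : EuclideanSpace ℝ (Lam × S) ≃ᵢ EuclideanSpace ℝ (Lam × S), φ '' X = X ∧ φ (T a) = T y := by
    intro y hy
    induction hy with
    | base => exact ⟨IsometryEquiv.refl _, Set.image_id X, rfl⟩
    | sign ε h ih =>
      obtain ⟨φ, h1, h2⟩ := ih
      refine ⟨φ.trans (signI ε), ?_, ?_⟩
      · rw [image_trans, h1, hsign]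
      · rw [IsometryEquiv.trans_apply, h2]
        ext ω
        simp [hT]
    | transl v h ih =>
      obtain ⟨φ, h1, h2⟩ := ih
      refine ⟨φ.trans (permL (Vale.Agent.P058.transl v)).toIsometryEquiv, ?_, ?_⟩
      · rw [image_trans, h1, htransl]
      · rw [IsometryEquiv.trans_apply, h2]
        ext ω
        simp [hT, Vale.Agent.P058.transl]
    | perm π hπ h ih =>
      obtain ⟨φ, h1, h2⟩ := ih
      refine ⟨φ.trans (permL (shiftP (S := S) π)).toIsometryEquiv, ?_, ?_⟩
      · rw [image_trans, h1, hperm π hπ]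
      · rw [IsometryEquiv.trans_apply, h2]
        ext ω
        simp [hT, shiftP]
  have hTself : ∀ y : EuclideanSpace ℝ (Lam × S), T (fun ω => y ω) = y := fun y => rfl
  refine subtransitive_of_transitive A X hfin ?_ (fun p => T (g p)) ?_ ?_
  · intro x hx y hy
    obtain ⟨φ, h1, h2⟩ := hsym _ hx
    obtain ⟨ψ, h3, h4⟩ := hsym _ hy
    have h2' : φ (T a) = x := h2
    have h4' : ψ (T a) = y := h4
    refine ⟨φ.symm.trans ψ, ?_, ?_⟩
    · rw [image_trans]
      have : φ.symm '' X = X := by
        conv_lhs => rw [← h1]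
        rw [← Set.image_comp]
        simp
      rw [this, h3]
    · rw [IsometryEquiv.trans_apply, ← h2', IsometryEquiv.symm_apply_apply, h4']
  · intro p hp
    exact hg p hp
  · intro p hp q hq
    have h1 : dist (T (g p)) (T (g q)) ^ 2 = dist p q ^ 2 := by
      rw [← hd p hp q hq, EuclideanSpace.dist_eq,
        Real.sq_sqrt (Finset.sum_nonneg fun _ _ => sq_nonneg _)]
      refine Finset.sum_congr rfl fun ω _ => ?_
      rw [Real.dist_eq, sq_abs, hT, hT]
    exact (sq_eq_sq₀ dist_nonneg dist_nonneg).1 h1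

end Vale.Agent.P058
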