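import Vale.Agent.P058.RamseyThm

/-!
# Ramsey theorem for order embeddings (task R2)

Deduce `ramsey_emb` from `ramsey_finset`.  Take `M` at least `n`, `L` and the number given by
`ramsey_finset κ n L` (with `M ≥ n` the type `Fin n ↪o Fin M` is nonempty, so `κ` is nonempty as soon
as a colouring exists).  Colour a finite set `U` of naturals by the colour of the order embedding
enumerating it when `U.card = n` and `U ⊆ range M` (`Finset.orderEmbOfFin`, any colour otherwise),
apply `ramsey_finset` to `S = range M`, let `T` enumerate the homogeneous set, and identify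
`J.trans T` with the enumeration of its image by `Finset.orderEmbOfFin_unique`.
-/

namespace Vale.Agent.P058

/-- The increasing enumeration of a `k`-element subset of `range M`, as an order embedding
`Fin k ↪o Fin M`. -/
noncomputable def enumEmb {k M : ℕ} (U : Finset ℕ) (hc : U.card = k) (hM : ∀ x ∈ U, x < M) :
    Fin k ↪o Fin M :=
  OrderEmbedding.ofStrictMono
    (fun i => ⟨U.orderEmbOfFin hc i, hM _ (U.orderEmbOfFin_mem hc i)⟩)
    (fun _ _ hij => (U.orderEmbOfFin hc).strictMono hij)

theorem enumEmb_val {k M : ℕ} (U : Finset ℕ) (hc : U.card = k) (hM : ∀ x ∈ U, x < M) (i : Fin k) :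
    ((enumEmb U hc hM i : Fin M) : ℕ) = U.orderEmbOfFin hc i := rfl

theorem ramsey_emb (κ : Type) [Finite κ] (n L : ℕ) : ∃ M : ℕ, ∀ χ : (Fin n ↪o Fin M) → κ,
    ∃ (T : Fin L ↪o Fin M) (c : κ), ∀ J : Fin n ↪o Fin L, χ (J.trans T) = c := by
  classical
  obtain ⟨M0, hM0⟩ := ramsey_finset κ n L
  obtain ⟨M, hM0M, hnM⟩ : ∃ M, M0 ≤ M ∧ n ≤ M := ⟨max M0 n, le_max_left _ _, le_max_right _ _⟩
  refine ⟨M, fun χ => ?_⟩
  let c0 : κ := χ (Fin.castLEOrderEmb hnM)
  let χ' : Finset ℕ → κ := fun U =>
    if h : U.card = n ∧ ∀ x ∈ U, x < M then χ (enumEmb U h.1 h.2) else c0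
  obtain ⟨T, hT, hTc, c, hhom⟩ := hM0 χ' (Finset.range M) (by simpa using hM0M)
  have hTM : ∀ x ∈ T, x < M := fun x hx => Finset.mem_range.mp (hT hx)
  refine ⟨enumEmb T hTc hTM, c, fun J => ?_⟩
  let f : Fin n → ℕ := fun i => T.orderEmbOfFin hTc (J i)
  have hf : StrictMono f := fun _ _ hij => (T.orderEmbOfFin hTc).strictMono (J.strictMono hij)
  let U : Finset ℕ := Finset.univ.image f
  have hUT : U ⊆ T := by
    intro x hx
    obtain ⟨i, _, rfl⟩ := Finset.mem_image.mp hx
    exact T.orderEmbOfFin_mem hTc _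
  have hUc : U.card = n := by
    rw [Finset.card_image_of_injective _ hf.injective]
    simp
  have hUM : ∀ x ∈ U, x < M := fun x hx => hTM x (hUT hx)
  have h1 : χ' U = c := hhom U hUT hUc
  have h2 : χ' U = χ (enumEmb U hUc hUM) := by
    simp only [χ']
    rw [dif_pos ⟨hUc, hUM⟩]
  have h3 : enumEmb U hUc hUM = J.trans (enumEmb T hTc hTM) := by
    have huniq : f = U.orderEmbOfFin hUc :=
      Finset.orderEmbOfFin_unique hUc (fun i => Finset.mem_image_of_mem f (Finset.mem_univ i)) hf
    ext i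
    rw [enumEmb_val, ← huniq]
    rfl
  rw [← h3, ← h2, h1]

end Vale.Agent.P058
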