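import Mathlib

/-!
# Finite hypergraph Ramsey theorem (task R1)

`ramsey_finset` : for a finite colour type, all `n`, `L` there is `M` such that every colouring of
finite subsets of the naturals and every `S` with at least `M` elements has a subset `T` of size `L`
all of whose `n`-element subsets get the same colour.

Proof (Erdos-Szekeres recursion, no order needed).  Prove the off-diagonal version
`∀ n, ∀ L : κ → ℕ, ∃ M, ∀ χ S, M ≤ S.card → ∃ c, ∃ T ⊆ S, T.card = L c ∧ ∀ U ⊆ T, U.card = n → χ U = c`
by induction on `n` (outer) and on `∑ c, L c` (inner).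
* `n = 0`: only `U = ∅`; take `c = χ ∅`, `M = L`-maximum (or the sum of all `L c`).
* `n + 1`: if some `L c = 0` take `T = ∅`.  Otherwise let `M c` be the number given by the inner
  induction hypothesis for `L` decreased by one at `c`, and `M = 1 + M' ` where `M'` is given by the
  outer hypothesis for `n` and the size vector `c ↦ M c`.  Given `S`, pick `v ∈ S`, colour
  `U ↦ χ (insert v U)` on `S.erase v`; get `c` and `S' ⊆ S.erase v` with `S'.card = M c`.
  Apply the inner hypothesis inside `S'`: get `c'`, `T'`.  If `c' ≠ c` done, otherwise
  `T = insert v T'`.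
-/

namespace Vale.Agent.P058

/-- Off-diagonal finite hypergraph Ramsey theorem. -/
theorem ramsey_off (κ : Type) [Fintype κ] [DecidableEq κ] (n : ℕ) : ∀ (s : ℕ) (L : κ → ℕ),
    ∑ c, L c = s → ∃ M : ℕ, ∀ (χ : Finset ℕ → κ) (S : Finset ℕ), M ≤ S.card →
      ∃ c, ∃ T ⊆ S, T.card = L c ∧ ∀ U ⊆ T, U.card = n → χ U = c := by
  induction n with
  | zero =>
    intro s L hs
    refine ⟨s, fun χ S hS => ⟨χ ∅, ?_⟩⟩
    have h1 : L (χ ∅) ≤ S.card := by
      have : L (χ ∅) ≤ ∑ c, L c :=
        Finset.single_le_sum (f := L) (fun _ _ => Nat.zero_le _) (Finset.mem_univ _)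
      omega
    obtain ⟨T, hT, hc⟩ := Finset.exists_subset_card_eq h1
    refine ⟨T, hT, hc, fun U _ hU => ?_⟩
    rw [Finset.card_eq_zero.mp hU]
  | succ n ihn =>
    intro s
    induction s using Nat.strong_induction_on with
    | _ s ihs =>
      intro L hs
      by_cases h0 : ∃ c, L c = 0
      · obtain ⟨c, hc⟩ := h0
        refine ⟨0, fun χ S _ => ⟨c, ∅, Finset.empty_subset _, by simp [hc], fun U hU hcard => ?_⟩⟩
        rw [Finset.subset_empty.mp hU] at hcard
        simp at hcard
      · push Not at h0
        have hlt : ∀ c, ∑ d, Function.update L c (L c - 1) d < s := by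
          intro c
          rw [← hs]
          apply Finset.sum_lt_sum
          · intro d _
            by_cases hd : d = c
            · subst hd; simp
            · simp [Function.update_of_ne hd]
          · refine ⟨c, Finset.mem_univ _, ?_⟩
            have := h0 c
            simp only [Function.update_self]
            omega
        have hex : ∀ c, ∃ M : ℕ, ∀ (χ : Finset ℕ → κ) (S : Finset ℕ), M ≤ S.card →
            ∃ c', ∃ T ⊆ S, T.card = Function.update L c (L c - 1) c' ∧
              ∀ U ⊆ T, U.card = n + 1 → χ U = c' :=
          fun c => ihs _ (hlt c) _ rfl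
        choose M hM using hex
        obtain ⟨M', hM'⟩ := ihn _ M rfl
        refine ⟨M' + 1, fun χ S hS => ?_⟩
        have hne : S.Nonempty := by
          rw [← Finset.card_pos]; omega
        obtain ⟨v, hv⟩ := hne
        have hcard : M' ≤ (S.erase v).card := by
          rw [Finset.card_erase_of_mem hv]; omega
        obtain ⟨c, S', hS', hS'c, hhom⟩ := hM' (fun U => χ (insert v U)) (S.erase v) hcard
        obtain ⟨c', T', hT', hT'c, hhom'⟩ := hM c χ S' hS'c.ge
        by_cases hcc : c' = c
        · subst hcc
          have hvT : v ∉ T' := fun h => by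
            have := hS' (hT' h)
            simp at this
          refine ⟨c', insert v T', ?_, ?_, ?_⟩
          · intro x hx
            rcases Finset.mem_insert.mp hx with rfl | hx
            · exact hv
            · exact Finset.mem_of_mem_erase (hS' (hT' hx))
          · rw [Finset.card_insert_of_notMem hvT, hT'c]
            have := h0 c'
            simp only [Function.update_self]
            omega
          · intro U hU hUc
            by_cases hvU : v ∈ U
            · have h1 : insert v (U.erase v) = U := Finset.insert_erase hvU
              rw [← h1]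
              apply hhom
              · intro x hx
                have hx1 := Finset.mem_of_mem_erase hx
                have hx2 := Finset.ne_of_mem_erase hx
                rcases Finset.mem_insert.mp (hU hx1) with h | h
                · exact absurd h hx2
                · exact hT' h
              · rw [Finset.card_erase_of_mem hvU, hUc]; rfl
            · apply hhom' _ _ hUc
              intro x hx
              rcases Finset.mem_insert.mp (hU hx) with h | h
              · exact absurd (h ▸ hx) hvU
              · exact h
        · refine ⟨c', T', ?_, ?_, hhom'⟩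
          · intro x hx
            exact Finset.mem_of_mem_erase (hS' (hT' hx))
          · rw [hT'c, Function.update_of_ne hcc]

theorem ramsey_finset (κ : Type) [Finite κ] (n L : ℕ) : ∃ M : ℕ, ∀ (χ : Finset ℕ → κ)
    (S : Finset ℕ), M ≤ S.card → ∃ T ⊆ S, T.card = L ∧ ∃ c, ∀ U ⊆ T, U.card = n → χ U = c := by
  classical
  have := Fintype.ofFinite κ
  obtain ⟨M, hM⟩ := ramsey_off κ n _ (fun _ => L) rfl
  refine ⟨M, fun χ S hS => ?_⟩
  obtain ⟨c, T, hT, hc, hh⟩ := hM χ S hS
  exact ⟨T, hT, hc, c, hh⟩

end Vale.Agent.P058
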