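import Vale.Agent.P058.TowerG
import Vale.Agent.P058.Mono
import Vale.Agent.P058.BlockSet

/-!
# Reachable vectors for a general tower
Same as `Realize.lean` and `Config.lean`, with a set `P` of permutations of `Lam`.
-/

namespace Vale.Agent.P058

open Finset
open scoped RealInnerProductSpace

variable {Lam S : Type}

/-- vectors reachable from `a` by sign changes, translations in the `S` direction depending on the
`Lam` coordinate, and the permutations of the `Lam` coordinate belonging to `P`. -/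
inductive ReachG [AddCommGroup S] (P : Set (Equiv.Perm Lam)) (a : Lam × S → ℝ) :
    (Lam × S → ℝ) → Prop
  | base : ReachG P a a
  | sign (ε : Lam × S → ℤˣ) {y : Lam × S → ℝ} (h : ReachG P a y) :
      ReachG P a (fun ω => ((ε ω : ℤ) : ℝ) * y ω)
  | transl (v : Lam → S) {y : Lam × S → ℝ} (h : ReachG P a y) :
      ReachG P a (fun ω => y (ω.1, ω.2 + v ω.1))
  | perm (π : Equiv.Perm Lam) (hπ : π ∈ P) {y : Lam × S → ℝ} (h : ReachG P a y) :
      ReachG P a (fun ω => y (π ω.1, ω.2))

theorem isRamsey_of_reachG [Fintype Lam] [Fintype S] [AddCommGroup S] {d : ℕ} (A : Set (E d))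
    (P : Set (Equiv.Perm Lam)) (hT : TowerOK Lam S P) (a : Lam × S → ℝ) (g : E d → Lam × S → ℝ)
    (hg : ∀ p ∈ A, ReachG P a (g p))
    (hd : ∀ p ∈ A, ∀ q ∈ A, ∑ ω, (g p ω - g q ω) ^ 2 = dist p q ^ 2) : IsRamsey A := by
  classical
  obtain ⟨R, hEq, hAch, hsign, htr, hsh⟩ := hT a
  set x₀ : XX Lam S := fun ω => (1, ω) with hx₀
  have key : ∀ y, ReachG P a y → ∃ x, R x₀ x ∧ ev a x = y := by
    intro y hy
    induction hy with
    | base =>
      refine ⟨x₀, hEq.refl _, ?_⟩
      funext ω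
      simp [ev, hx₀]
    | sign ε h ih =>
      obtain ⟨x, hx, rfl⟩ := ih
      refine ⟨signP ε x, hEq.trans hx (hsign ε x), ?_⟩
      funext ω
      simp [ev, signP, mul_assoc]
    | transl v h ih =>
      obtain ⟨x, hx, rfl⟩ := ih
      refine ⟨permP (Vale.Agent.P058.transl v) x, hEq.trans hx (htr v x), ?_⟩
      funext ω
      simp [ev, permP, Vale.Agent.P058.transl]
    | perm π hπ h ih =>
      obtain ⟨x, hx, rfl⟩ := ih
      refine ⟨permP (shiftP π) x, hEq.trans hx (hsh π hπ x), ?_⟩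
      funext ω
      simp [ev, permP, shiftP]
  intro r
  obtain ⟨D, hD⟩ := mono_of_ach (ev a) R hAch r
  refine ⟨D, fun col => ?_⟩
  obtain ⟨φ, hφ1, hφ2⟩ := hD col
  have key' : ∀ p : E d, ∃ x, p ∈ A → (R x₀ x ∧ ev a x = g p) := by
    intro p
    by_cases hp : p ∈ A
    · obtain ⟨x, hx⟩ := key _ (hg p hp)
      exact ⟨x, fun _ => hx⟩
    · exact ⟨x₀, fun h => absurd h hp⟩
  choose ψ hψ using key'
  refine ⟨fun p => φ (ψ p), ?_, ?_⟩
  · intro p hp q hq
    have h1 : dist (φ (ψ p)) (φ (ψ q)) ^ 2 = dist p q ^ 2 := by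
      rw [hφ1, (hψ p hp).2, (hψ q hq).2, hd p hp q hq]
    exact (sq_eq_sq₀ dist_nonneg dist_nonneg).1 h1
  · intro p hp q hq
    exact hφ2 _ _ (hEq.trans (hEq.symm (hψ p hp).1) (hψ q hq).1)

lemma ReachG.sum_sq [Fintype Lam] [Fintype S] [AddCommGroup S] {P : Set (Equiv.Perm Lam)}
    {a y : Lam × S → ℝ} (h : ReachG P a y) : ∑ ω, y ω ^ 2 = ∑ ω, a ω ^ 2 := by
  induction h with
  | base => rfl
  | sign ε h ih =>
    rw [← ih]
    refine Finset.sum_congr rfl fun ω _ => ?_
    rcases Int.units_eq_one_or (ε ω) with h1 | h1 <;> simp [h1]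
  | transl v h ih =>
    rename_i y
    rw [← ih]
    exact Equiv.sum_comp (Vale.Agent.P058.transl v) (fun ω => y ω ^ 2)
  | perm π hπ h ih =>
    rename_i y
    rw [← ih]
    exact Equiv.sum_comp (shiftP (S := S) π) (fun ω => y ω ^ 2)

lemma ReachG.smul [AddCommGroup S] {P : Set (Equiv.Perm Lam)}
    {a y : Lam × S → ℝ} (r : ℝ) (h : ReachG P a y) :
    ReachG P (fun ω => r * a ω) (fun ω => r * y ω) := by
  induction h with
  | base => exact ReachG.base
  | sign ε h ih =>
    rename_i y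
    have e : (fun ω => r * (((ε ω : ℤ) : ℝ) * y ω)) = fun ω => ((ε ω : ℤ) : ℝ) * (r * y ω) := by
      funext ω; ring
    rw [e]
    exact ReachG.sign ε ih
  | transl v h ih => exact ReachG.transl v ih
  | perm π hπ h ih => exact ReachG.perm π hπ ih

/-- A configuration of reachable vectors satisfying the kite relation gives an isometric copy of the
kite all of whose points are reachable from a common vector. -/
theorem kite_map_of_configG [Fintype Lam] [Fintype S] [AddCommGroup S] (P : Set (Equiv.Perm Lam))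
    (t s : ℝ) (hts : t ^ 2 + s ^ 2 = 1) (hs : s ≠ 0) (v a b c d : Lam × S → ℝ)
    (ha : ReachG P v a) (hb : ReachG P v b) (hc : ReachG P v c) (hd : ReachG P v d)
    (hrel : ∀ ω, b ω + d ω = (1 + t) * a ω + (1 - t) * c ω)
    (hab : ∑ ω, a ω * b ω = ∑ ω, a ω * d ω) (hcb : ∑ ω, c ω * b ω = ∑ ω, c ω * d ω)
    (hne : a ≠ c) :
    ∃ (v' : Lam × S → ℝ) (g : E 2 → Lam × S → ℝ), (∀ p ∈ kite t s, ReachG P v' (g p)) ∧
      ∀ p ∈ kite t s, ∀ q ∈ kite t s, ∑ ω, (g p ω - g q ω) ^ 2 = dist p q ^ 2 := by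
  classical
  let T : (Lam × S → ℝ) → EuclideanSpace ℝ (Lam × S) := fun x => WithLp.toLp 2 x
  have hT : ∀ x ω, T x ω = x ω := fun x ω => rfl
  have hne' : T a ≠ T c := by
    intro h
    apply hne
    funext ω
    have := congrArg (fun z : EuclideanSpace ℝ (Lam × S) => z ω) h
    simpa [hT] using this
  have hpos : 0 < ‖T a - T c‖ := norm_pos_iff.2 (sub_ne_zero.2 hne')
  set r : ℝ := 2 / ‖T a - T c‖ with hr
  have hrpos : 0 < r := by positivity
  have hnorm : ∀ {x : Lam × S → ℝ}, ReachG P v x → ‖T x‖ = ‖T v‖ := by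
    intro x hx
    rw [EuclideanSpace.norm_eq, EuclideanSpace.norm_eq]
    congr 1
    simp only [hT, Real.norm_eq_abs, sq_abs]
    exact hx.sum_sq
  have hn : ∀ {x : Lam × S → ℝ}, ReachG P v x → ‖r • T x‖ = ‖r • T a‖ := by
    intro x hx
    rw [norm_smul, norm_smul, hnorm hx, hnorm ha]
  have hinner : ∀ x y : Lam × S → ℝ, ⟪T x, T y⟫ = ∑ ω, x ω * y ω := by
    intro x y
    rw [PiLp.inner_apply]
    refine Finset.sum_congr rfl fun ω _ => ?_
    simp [hT, mul_comm]
  have hrel' : T b + T d = (1 + t) • T a + (1 - t) • T c := by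
    ext ω
    simpa [hT] using hrel ω
  obtain ⟨g, hg, ga, gc, gb, gd⟩ := kite_isometry t s hts hs (r • T a) (r • T b) (r • T c) (r • T d)
    (hn hb) (hn hc) (hn hd)
    (by rw [← smul_add, hrel', smul_add, smul_comm, smul_comm r (1 - t)])
    (by simp only [inner_smul_left, inner_smul_right, hinner, hab])
    (by simp only [inner_smul_left, inner_smul_right, hinner, hcb])
    (by rw [← smul_sub, norm_smul, Real.norm_of_nonneg hrpos.le, hr]; field_simp)
  refine ⟨fun ω => r * v ω, fun p ω => g p ω, ?_, ?_⟩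
  · intro p hp
    simp only [kite, Set.mem_insert_iff, Set.mem_singleton_iff] at hp
    rcases hp with rfl | rfl | rfl | rfl
    · show ReachG P (fun ω => r * v ω) (fun ω => g !₂[1, 0] ω)
      rw [ga]; exact ReachG.smul r ha
    · show ReachG P (fun ω => r * v ω) (fun ω => g !₂[-1, 0] ω)
      rw [gc]; exact ReachG.smul r hc
    · show ReachG P (fun ω => r * v ω) (fun ω => g !₂[t, s] ω)
      rw [gb]; exact ReachG.smul r hb
    · show ReachG P (fun ω => r * v ω) (fun ω => g !₂[t, -s] ω)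
      rw [gd]; exact ReachG.smul r hd
  · intro p _ q _
    rw [← hg p q, EuclideanSpace.dist_eq, Real.sq_sqrt (Finset.sum_nonneg fun _ _ => sq_nonneg _)]
    refine Finset.sum_congr rfl fun ω _ => ?_
    rw [Real.dist_eq, sq_abs]

end Vale.Agent.P058
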