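import Vale.Agent.P058.Tower
import Vale.Agent.P058.Mono

/-!
# Reachable vectors span Ramsey sets (task E2)

`isRamsey_of_reach`: from `tower_ach` get `R`; by induction on `Reach` every reachable vector `y` is
`ev a x` for some `x` with `R x₀ x`, `x₀ = fun ω => (1, ω)`.  Choose such `ψ p` for `p ∈ P`, and
compose with `φ` from `mono_of_ach`.
-/

namespace Vale.Agent.P058

open Finset

variable {Lam S : Type}

/-- vectors reachable from `a` by sign changes, translations in the `S` direction depending on the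
`Lam` coordinate, and the shift `ρ` of the `Lam` coordinate. -/
inductive Reach [AddCommGroup S] (ρ : Equiv.Perm Lam) (a : Lam × S → ℝ) : (Lam × S → ℝ) → Prop
  | base : Reach ρ a a
  | sign (ε : Lam × S → ℤˣ) {y : Lam × S → ℝ} (h : Reach ρ a y) :
      Reach ρ a (fun ω => ((ε ω : ℤ) : ℝ) * y ω)
  | transl (v : Lam → S) {y : Lam × S → ℝ} (h : Reach ρ a y) :
      Reach ρ a (fun ω => y (ω.1, ω.2 + v ω.1))
  | shift {y : Lam × S → ℝ} (h : Reach ρ a y) : Reach ρ a (fun ω => y (ρ ω.1, ω.2))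

theorem isRamsey_of_reach [Fintype Lam] [Fintype S] [AddCommGroup S] {d : ℕ} (P : Set (E d))
    (ρ : Equiv.Perm Lam) (a : Lam × S → ℝ) (g : E d → Lam × S → ℝ)
    (hg : ∀ p ∈ P, Reach ρ a (g p))
    (hd : ∀ p ∈ P, ∀ q ∈ P, ∑ ω, (g p ω - g q ω) ^ 2 = dist p q ^ 2) : IsRamsey P := by
  classical
  obtain ⟨R, hEq, hAch, hsign, htr, hsh⟩ := tower_ach ρ a
  set x₀ : XX Lam S := fun ω => (1, ω) with hx₀
  have key : ∀ y, Reach ρ a y → ∃ x, R x₀ x ∧ ev a x = y := by
    intro y hy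
    induction hy with
    | base =>
      refine ⟨x₀, hEq.refl _, ?_⟩
      funext ω
      simp [ev, hx₀]
    | sign ε h ih =>
      obtain ⟨x, hx, rfl⟩ := ih
      refine ⟨signP ε x, hEq.trans hx (hsign ε x), ?_⟩
      funext ω
      simp [ev, signP, mul_assoc]
    | transl v h ih =>
      obtain ⟨x, hx, rfl⟩ := ih
      refine ⟨permP (Vale.Agent.P058.transl v) x, hEq.trans hx (htr v x), ?_⟩
      funext ω
      simp [ev, permP, Vale.Agent.P058.transl]
    | shift h ih =>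
      obtain ⟨x, hx, rfl⟩ := ih
      refine ⟨permP (shiftP ρ) x, hEq.trans hx (hsh x), ?_⟩
      funext ω
      simp [ev, permP, shiftP]
  intro r
  obtain ⟨D, hD⟩ := mono_of_ach (ev a) R hAch r
  refine ⟨D, fun col => ?_⟩
  obtain ⟨φ, hφ1, hφ2⟩ := hD col
  have key' : ∀ p : E d, ∃ x, p ∈ P → (R x₀ x ∧ ev a x = g p) := by
    intro p
    by_cases hp : p ∈ P
    · obtain ⟨x, hx⟩ := key _ (hg p hp)
      exact ⟨x, fun _ => hx⟩
    · exact ⟨x₀, fun h => absurd h hp⟩
  choose ψ hψ using key'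
  refine ⟨fun p => φ (ψ p), ?_, ?_⟩
  · intro p hp q hq
    have h1 : dist (φ (ψ p)) (φ (ψ q)) ^ 2 = dist p q ^ 2 := by
      rw [hφ1, (hψ p hp).2, (hψ q hq).2, hd p hp q hq]
    exact (sq_eq_sq₀ dist_nonneg dist_nonneg).1 h1
  · intro p hp q hq
    exact hφ2 _ _ (hEq.trans (hEq.symm (hψ p hp).1) (hψ q hq).1)

end Vale.Agent.P058
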