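import Vale.Agent.P058.Family

/-!
# Signed permutation towers (task T)

Coordinates `Lam × S` (`S` a finite commutative group).  The alphabet is
`XX Lam S = Lam × S → ℤˣ × (Lam × S)`; the letter `x` stands for the real vector
`ev a x ω = (x ω).1 * a (x ω).2`.  Three families of permutations of the alphabet:
sign changes `signP ε`, translations `permP (transl v)` (`v : Lam → S`, commuting family), and one
shift `permP (shiftP ρ)`.  All preserve `KK a`.

`tower_ach`: apply `ach_family` three times, starting from `Ach.eq`: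
`R₁ = EqvGen (x = y ∨ ∃ ε, y = signP ε x)`, `R₂ = EqvGen (R₁ x y ∨ ∃ v, y = permP (transl v) x)`,
`R₃ = EqvGen (R₂ x y ∨ ∃ _ : Unit, y = permP (shiftP ρ) x)`.
Needed commutation: `permP π (signP ε x) = signP (ε ∘ π) (permP π x)`,
`permP (shiftP ρ) (permP (transl v) x) = permP (transl (v ∘ ρ)) (permP (shiftP ρ) x)`;
preservation of the relations by `eqvGen_pres`.
-/

namespace Vale.Agent.P058

open Finset

variable {Lam S : Type}

abbrev XX (Lam S : Type) := Lam × S → ℤˣ × (Lam × S)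

/-- the real vector represented by a letter -/
def ev (a : Lam × S → ℝ) (x : XX Lam S) (ω : Lam × S) : ℝ := (((x ω).1 : ℤ) : ℝ) * a (x ω).2

def KK [Fintype Lam] [Fintype S] (a : Lam × S → ℝ) (x y : XX Lam S) : ℝ :=
  ∑ ω, (ev a x ω - ev a y ω) ^ 2

def signP (ε : Lam × S → ℤˣ) : Equiv.Perm (XX Lam S) where
  toFun x := fun ω => (ε ω * (x ω).1, (x ω).2)
  invFun x := fun ω => (ε ω * (x ω).1, (x ω).2)
  left_inv x := by
    funext ω
    simp [← mul_assoc]
  right_inv x := by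
    funext ω
    simp [← mul_assoc]

def permP (π : Equiv.Perm (Lam × S)) : Equiv.Perm (XX Lam S) where
  toFun x := x ∘ π
  invFun x := x ∘ π.symm
  left_inv x := by
    funext ω
    simp
  right_inv x := by
    funext ω
    simp

def transl [AddCommGroup S] (v : Lam → S) : Equiv.Perm (Lam × S) where
  toFun ω := (ω.1, ω.2 + v ω.1)
  invFun ω := (ω.1, ω.2 - v ω.1)
  left_inv ω := by simp
  right_inv ω := by simp

def shiftP (ρ : Equiv.Perm Lam) : Equiv.Perm (Lam × S) where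
  toFun ω := (ρ ω.1, ω.2)
  invFun ω := (ρ.symm ω.1, ω.2)
  left_inv ω := by simp
  right_inv ω := by simp

lemma ev_signP (a : Lam × S → ℝ) (ε : Lam × S → ℤˣ) (x : XX Lam S) (ω : Lam × S) :
    ev a (signP ε x) ω = ((ε ω : ℤ) : ℝ) * ev a x ω := by
  simp [ev, signP, mul_assoc]

lemma ev_permP (a : Lam × S → ℝ) (π : Equiv.Perm (Lam × S)) (x : XX Lam S) (ω : Lam × S) :
    ev a (permP π x) ω = ev a x (π ω) := rfl

lemma KK_self [Fintype Lam] [Fintype S] (a : Lam × S → ℝ) (x : XX Lam S) : KK a x x = 0 := by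
  simp [KK]

lemma KK_signP [Fintype Lam] [Fintype S] (a : Lam × S → ℝ) (ε : Lam × S → ℤˣ) (x y : XX Lam S) :
    KK a (signP ε x) (signP ε y) = KK a x y := by
  unfold KK
  refine Finset.sum_congr rfl (fun ω _ => ?_)
  rw [ev_signP, ev_signP]
  rcases Int.units_eq_one_or (ε ω) with h | h <;> rw [h] <;> simp <;> ring

lemma KK_permP [Fintype Lam] [Fintype S] (a : Lam × S → ℝ) (π : Equiv.Perm (Lam × S))
    (x y : XX Lam S) : KK a (permP π x) (permP π y) = KK a x y :=
  Equiv.sum_comp π (fun ω => (ev a x ω - ev a y ω) ^ 2)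

lemma permP_signP (π : Equiv.Perm (Lam × S)) (ε : Lam × S → ℤˣ) (x : XX Lam S) :
    permP π (signP ε x) = signP (ε ∘ π) (permP π x) := rfl

lemma shift_transl [AddCommGroup S] (ρ : Equiv.Perm Lam) (v : Lam → S) (x : XX Lam S) :
    permP (shiftP ρ) (permP (transl v) x) = permP (transl (v ∘ ρ)) (permP (shiftP ρ) x) := rfl

theorem tower_ach [Fintype Lam] [Fintype S] [AddCommGroup S] (ρ : Equiv.Perm Lam)
    (a : Lam × S → ℝ) :
    ∃ R : XX Lam S → XX Lam S → Prop, Equivalence R ∧ Ach (KK a) R ∧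
      (∀ ε x, R x (signP ε x)) ∧ (∀ v x, R x (permP (transl v) x)) ∧
      (∀ x, R x (permP (shiftP ρ) x)) := by
  classical
  obtain ⟨R₁, hR₁⟩ : ∃ R₁ : XX Lam S → XX Lam S → Prop,
      R₁ = Relation.EqvGen (fun x y => x = y ∨ ∃ ε, y = signP ε x) := ⟨_, rfl⟩
  have A₁ : Ach (KK a) R₁ := by
    rw [hR₁]
    refine ach_family (KK a) (KK_self a) (fun ε => signP ε) (KK_signP a) ?_ (fun x y => x = y)
      eq_equivalence ?_ (Ach.eq _)
    · intro ε ε' x
      funext ω
      simp [signP, mul_left_comm]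
    · rintro ε x y rfl
      rfl
  have E₁ : Equivalence R₁ := by
    rw [hR₁]; exact Relation.EqvGen.is_equivalence _
  have P₁ : ∀ (π : Equiv.Perm (Lam × S)) (x y : XX Lam S),
      R₁ x y → R₁ (permP π x) (permP π y) := by
    intro π
    rw [hR₁]
    apply eqvGen_pres
    rintro x y (rfl | ⟨ε, rfl⟩)
    · exact Relation.EqvGen.refl _
    · exact Relation.EqvGen.rel _ _ (Or.inr ⟨ε ∘ π, permP_signP π ε x⟩)
  obtain ⟨R₂, hR₂⟩ : ∃ R₂ : XX Lam S → XX Lam S → Prop,
      R₂ = Relation.EqvGen (fun x y => R₁ x y ∨ ∃ v : Lam → S, y = permP (transl v) x) := ⟨_, rfl⟩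
  have A₂ : Ach (KK a) R₂ := by
    rw [hR₂]
    refine ach_family (KK a) (KK_self a) (fun v : Lam → S => permP (transl v))
      (fun v => KK_permP a _) ?_ R₁ E₁ (fun v => P₁ _) A₁
    intro v v' x
    funext ω
    simp [permP, transl, add_right_comm]
  have E₂ : Equivalence R₂ := by
    rw [hR₂]; exact Relation.EqvGen.is_equivalence _
  have P₂ : ∀ (x y : XX Lam S), R₂ x y → R₂ (permP (shiftP ρ) x) (permP (shiftP ρ) y) := by
    rw [hR₂]
    apply eqvGen_pres
    rintro x y (h | ⟨v, rfl⟩)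
    · exact Relation.EqvGen.rel _ _ (Or.inl (P₁ _ _ _ h))
    · exact Relation.EqvGen.rel _ _ (Or.inr ⟨v ∘ ρ, shift_transl ρ v x⟩)
  have A₃ := ach_family (KK a) (KK_self a) (fun _ : Unit => permP (shiftP (S := S) ρ))
      (fun _ => KK_permP a _) (fun _ _ _ => rfl) R₂ E₂ (fun _ => P₂) A₂
  refine ⟨_, Relation.EqvGen.is_equivalence _, A₃, ?_, ?_, ?_⟩
  · intro ε x
    refine Relation.EqvGen.rel _ _ (Or.inl ?_)
    rw [hR₂]
    refine Relation.EqvGen.rel _ _ (Or.inl ?_)
    rw [hR₁]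
    exact Relation.EqvGen.rel _ _ (Or.inr ⟨ε, rfl⟩)
  · intro v x
    refine Relation.EqvGen.rel _ _ (Or.inl ?_)
    rw [hR₂]
    exact Relation.EqvGen.rel _ _ (Or.inr ⟨v, rfl⟩)
  · intro x
    exact Relation.EqvGen.rel _ _ (Or.inr ⟨(), rfl⟩)

end Vale.Agent.P058
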