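import Vale.Agent.P058.Tower

/-!
# Deeper towers of signed permutations

`TowerOK Lam S P`: the orbits of the group generated by all sign changes, all translations
`(l, s) ↦ (l, s + v l)` and the permutations of `Lam` in the set `P` can be made monochromatic.
`towerOK_two`: this holds for `Lam = Lam0 × S0` and `P` = all translations of `S0` depending on
`Lam0` together with one permutation of `Lam0`.
-/

namespace Vale.Agent.P058

open Finset

def TowerOK (Lam S : Type) [Fintype Lam] [Fintype S] [AddCommGroup S]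
    (P : Set (Equiv.Perm Lam)) : Prop :=
  ∀ a : Lam × S → ℝ, ∃ R : XX Lam S → XX Lam S → Prop, Equivalence R ∧ Ach (KK a) R ∧
      (∀ ε x, R x (signP ε x)) ∧ (∀ v x, R x (permP (transl v) x)) ∧
      (∀ π ∈ P, ∀ x, R x (permP (shiftP π) x))

/-- translations of `S0` depending on `Lam0`, and one permutation of `Lam0`. -/
def twoPerms {Lam0 S0 : Type} [AddCommGroup S0] (ρ : Equiv.Perm Lam0) :
    Set (Equiv.Perm (Lam0 × S0)) :=
  {π | (∃ v : Lam0 → S0, π = transl v) ∨ π = shiftP ρ}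

lemma shiftP_transl {Lam S : Type} [AddCommGroup S] (π : Equiv.Perm Lam) (v : Lam → S)
    (x : XX Lam S) :
    permP (shiftP π) (permP (transl v) x) = permP (transl (v ∘ π)) (permP (shiftP π) x) := rfl

theorem towerOK_two {Lam0 S0 Z : Type} [Fintype Lam0] [Fintype S0] [AddCommGroup S0] [Fintype Z]
    [AddCommGroup Z] (ρ : Equiv.Perm Lam0) : TowerOK (Lam0 × S0) Z (twoPerms ρ) := by
  classical
  intro a
  obtain ⟨R₁, hR₁⟩ : ∃ R₁ : XX (Lam0 × S0) Z → XX (Lam0 × S0) Z → Prop,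
      R₁ = Relation.EqvGen (fun x y => x = y ∨ ∃ ε, y = signP ε x) := ⟨_, rfl⟩
  have A₁ : Ach (KK a) R₁ := by
    rw [hR₁]
    refine ach_family (KK a) (KK_self a) (fun ε => signP ε) (KK_signP a) ?_ (fun x y => x = y)
      eq_equivalence ?_ (Ach.eq _)
    · intro ε ε' x
      funext ω
      simp [signP, mul_left_comm]
    · rintro ε x y rfl
      rfl
  have E₁ : Equivalence R₁ := by
    rw [hR₁]; exact Relation.EqvGen.is_equivalence _
  have P₁ : ∀ (π : Equiv.Perm ((Lam0 × S0) × Z)) (x y : XX (Lam0 × S0) Z),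
      R₁ x y → R₁ (permP π x) (permP π y) := by
    intro π
    rw [hR₁]
    apply eqvGen_pres
    rintro x y (rfl | ⟨ε, rfl⟩)
    · exact Relation.EqvGen.refl _
    · exact Relation.EqvGen.rel _ _ (Or.inr ⟨ε ∘ π, permP_signP π ε x⟩)
  obtain ⟨R₂, hR₂⟩ : ∃ R₂ : XX (Lam0 × S0) Z → XX (Lam0 × S0) Z → Prop,
      R₂ = Relation.EqvGen (fun x y => R₁ x y ∨ ∃ v : Lam0 × S0 → Z, y = permP (transl v) x) :=
    ⟨_, rfl⟩
  have A₂ : Ach (KK a) R₂ := by
    rw [hR₂]
    refine ach_family (KK a) (KK_self a) (fun v : Lam0 × S0 → Z => permP (transl v))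
      (fun v => KK_permP a _) ?_ R₁ E₁ (fun v => P₁ _) A₁
    intro v v' x
    funext ω
    simp [permP, transl, add_right_comm]
  have E₂ : Equivalence R₂ := by
    rw [hR₂]; exact Relation.EqvGen.is_equivalence _
  have P₂ : ∀ (π : Equiv.Perm (Lam0 × S0)) (x y : XX (Lam0 × S0) Z),
      R₂ x y → R₂ (permP (shiftP π) x) (permP (shiftP π) y) := by
    intro π
    rw [hR₂]
    apply eqvGen_pres
    rintro x y (h | ⟨v, rfl⟩)
    · exact Relation.EqvGen.rel _ _ (Or.inl (P₁ _ _ _ h))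
    · exact Relation.EqvGen.rel _ _ (Or.inr ⟨v ∘ π, shiftP_transl π v x⟩)
  obtain ⟨R₃, hR₃⟩ : ∃ R₃ : XX (Lam0 × S0) Z → XX (Lam0 × S0) Z → Prop,
      R₃ = Relation.EqvGen (fun x y => R₂ x y ∨
        ∃ w : Lam0 → S0, y = permP (shiftP (transl w)) x) := ⟨_, rfl⟩
  have A₃ : Ach (KK a) R₃ := by
    rw [hR₃]
    refine ach_family (KK a) (KK_self a) (fun w : Lam0 → S0 => permP (shiftP (transl w)))
      (fun w => KK_permP a _) ?_ R₂ E₂ (fun w => P₂ _) A₂
    intro w w' x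
    funext ω
    simp [permP, shiftP, transl, add_right_comm]
  have E₃ : Equivalence R₃ := by
    rw [hR₃]; exact Relation.EqvGen.is_equivalence _
  have P₃ : ∀ (x y : XX (Lam0 × S0) Z),
      R₃ x y → R₃ (permP (shiftP (shiftP ρ)) x) (permP (shiftP (shiftP ρ)) y) := by
    rw [hR₃]
    apply eqvGen_pres
    rintro x y (h | ⟨w, rfl⟩)
    · exact Relation.EqvGen.rel _ _ (Or.inl (P₂ _ _ _ h))
    · exact Relation.EqvGen.rel _ _ (Or.inr ⟨w ∘ ρ, rfl⟩)
  have A₄ := ach_family (KK a) (KK_self a)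
      (fun _ : Unit => permP (shiftP (S := Z) (shiftP (S := S0) ρ)))
      (fun _ => KK_permP a _) (fun _ _ _ => rfl) R₃ E₃ (fun _ => P₃) A₃
  have h23 : ∀ x y, R₂ x y → R₃ x y := by
    intro x y h
    rw [hR₃]
    exact Relation.EqvGen.rel _ _ (Or.inl h)
  refine ⟨_, Relation.EqvGen.is_equivalence _, A₄, ?_, ?_, ?_⟩
  · intro ε x
    refine Relation.EqvGen.rel _ _ (Or.inl (h23 _ _ ?_))
    rw [hR₂]
    refine Relation.EqvGen.rel _ _ (Or.inl ?_)
    rw [hR₁]
    exact Relation.EqvGen.rel _ _ (Or.inr ⟨ε, rfl⟩)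
  · intro v x
    refine Relation.EqvGen.rel _ _ (Or.inl (h23 _ _ ?_))
    rw [hR₂]
    exact Relation.EqvGen.rel _ _ (Or.inr ⟨v, rfl⟩)
  · rintro π (⟨w, rfl⟩ | rfl) x
    · refine Relation.EqvGen.rel _ _ (Or.inl ?_)
      rw [hR₃]
      exact Relation.EqvGen.rel _ _ (Or.inr ⟨w, rfl⟩)
    · exact Relation.EqvGen.rel _ _ (Or.inr ⟨(), rfl⟩)

end Vale.Agent.P058
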